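import Vale.Agent.P299.H167.Mat
import Vale.Agent.P272.K.AMP.Iface

/-!
# The lower bound `∫ det (Θ + δ w) ≥ c δ ^ (n - ν)`
-/

set_option autoImplicit false

open scoped Manifold ContDiff ComplexOrder Matrix
open Matrix MeasureTheory Set Filter Polynomial

noncomputable section

namespace Vale.Agent.P299.H167

open Vale.Agent.P272.K
open INT (IsDensity intX part Part)

section poly

/-- the `m`-th coefficient of `t ↦ det (A + t B)` -/
def cf {n : ℕ} (m : ℕ) (A B : Matrix (Fin n) (Fin n) ℂ) : ℝ :=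
  ∑ j : Fin (n + 1), (Lagrange.basis (Finset.univ : Finset (Fin (n + 1))) (fun i => (i : ℝ)) j).coeff m
    * (A + ((j : ℝ) : ℂ) • B).det.re

variable {n : ℕ} {A B w T : Matrix (Fin n) (Fin n) ℂ}

theorem cf_eq (m : ℕ) {Q : ℝ[X]} (hQ : Q.natDegree ≤ n)
    (h : ∀ t : ℝ, Q.eval t = (A + (t : ℂ) • B).det.re) : cf m A B = Q.coeff m := by
  have hdeg : Q.degree < (Finset.univ : Finset (Fin (n + 1))).card := by
    rw [Finset.card_univ, Fintype.card_fin]
    refine lt_of_le_of_lt Polynomial.degree_le_natDegree ?_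
    exact_mod_cast Nat.lt_succ_of_le hQ
  have hinj : Set.InjOn (fun i : Fin (n + 1) => (i : ℝ)) (Finset.univ : Finset (Fin (n + 1))) := by
    intro i _ j _ h
    simp only at h
    exact Fin.ext (by exact_mod_cast h)
  have h1 := Lagrange.eq_interpolate hinj hdeg
  rw [h1, Lagrange.interpolate_apply, Polynomial.finsetSum_coeff, cf]
  refine Finset.sum_congr rfl fun j _ => ?_
  rw [Polynomial.coeff_C_mul, h, mul_comm]

theorem coeff_nonneg_prod {ι : Type*} (s : Finset ι) {d : ι → ℝ} (hd : ∀ i, 0 ≤ d i) (m : ℕ) :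
    0 ≤ (∏ i ∈ s, (X + C (d i))).coeff m := by
  classical
  induction s using Finset.induction_on generalizing m with
  | empty =>
    rw [Finset.prod_empty, Polynomial.coeff_one]
    split_ifs <;> norm_num
  | insert i s hi ih =>
    rw [Finset.prod_insert hi, Polynomial.coeff_mul]
    refine Finset.sum_nonneg fun p _ => mul_nonneg ?_ (ih _)
    rw [Polynomial.coeff_add, Polynomial.coeff_X, Polynomial.coeff_C]
    have := hd i
    split_ifs <;> positivity

theorem coeff_le_eval {Q : ℝ[X]} (hQ : ∀ m, 0 ≤ Q.coeff m) (m : ℕ) {t : ℝ} (ht : 0 ≤ t) :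
    Q.coeff m * t ^ m ≤ Q.eval t := by
  rw [Polynomial.eval_eq_sum_range]
  by_cases hm : m ∈ Finset.range (Q.natDegree + 1)
  · exact Finset.single_le_sum (f := fun i => Q.coeff i * t ^ i)
      (fun i _ => mul_nonneg (hQ i) (pow_nonneg ht i)) hm
  · have : Q.natDegree < m := by
      simpa [Nat.lt_succ_iff] using hm
    rw [Polynomial.coeff_eq_zero_of_natDegree_lt this, zero_mul]
    exact Finset.sum_nonneg fun i _ => mul_nonneg (hQ i) (pow_nonneg ht i)

theorem exists_poly (hw : w.PosDef) (hT : T.PosSemidef) :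
    ∃ (Q : ℝ[X]), Q.natDegree ≤ n ∧ (∀ t : ℝ, Q.eval t = (T + (t : ℂ) • w).det.re) ∧
      (∀ m, 0 ≤ Q.coeff m) ∧ 0 < Q.coeff (n - T.rank) := by
  classical
  obtain ⟨P, d, hP, h1, h2⟩ := exists_simdiag hw hT.isHermitian
  have hP' : IsUnit Pᴴ.det := by rw [det_conjTranspose]; exact hP.star
  have hd : ∀ i, 0 ≤ d i := diag_nonneg hP (h2 ▸ hT)
  have e1 : w = Pᴴ * 1 * P := by rw [Matrix.mul_one]; exact h1
  have hPn : 0 < ‖P.det‖ ^ 2 := by
    have : P.det ≠ 0 := hP.ne_zero
    positivity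
  have e2 : ∀ t : ℝ, T + (t : ℂ) • w = Pᴴ * diagonal (fun i => ((d i + t : ℝ) : ℂ)) * P := by
    intro t
    rw [h2, e1, ← Matrix.smul_mul, ← Matrix.mul_smul, ← Matrix.add_mul, ← Matrix.mul_add]
    congr 2
    ext i j
    by_cases hij : i = j
    · subst hij; simp
    · simp [hij]
  have e6 : ∀ t : ℝ, (T + (t : ℂ) • w).det.re = ‖P.det‖ ^ 2 * ∏ i, (d i + t) := by
    intro t
    rw [e2, det_conj_mul, det_diagonal, re_prod_ofReal]
  set Z : Finset (Fin n) := Finset.univ.filter fun i => d i = 0 with hZ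
  have hrank : T.rank + Z.card = n := by
    have r1 : T.rank = (diagonal (fun i => (d i : ℂ)) : Matrix (Fin n) (Fin n) ℂ).rank := by
      rw [h2, rank_mul_eq_left_of_isUnit_det _ _ hP, rank_mul_eq_right_of_isUnit_det _ _ hP']
    rw [r1, rank_diagonal, Fintype.card_subtype]
    have h3 : (Finset.univ.filter fun i : Fin n => ((d i : ℝ) : ℂ) ≠ 0) =
        Finset.univ.filter fun i : Fin n => ¬ d i = 0 := by
      ext i; simp
    rw [h3, add_comm, hZ]
    have := Finset.card_filter_add_card_filter_not (s := (Finset.univ : Finset (Fin n)))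
      (fun i => d i = 0)
    simpa using this
  refine ⟨C (‖P.det‖ ^ 2) * ∏ i, (X + C (d i)), ?_, ?_, ?_, ?_⟩
  · refine (Polynomial.natDegree_C_mul_le _ _).trans ?_
    refine (Polynomial.natDegree_prod_le _ _).trans ?_
    simp
  · intro t
    rw [e6, Polynomial.eval_mul, Polynomial.eval_C, Polynomial.eval_prod]
    congr 1
    refine Finset.prod_congr rfl fun i _ => ?_
    simp [add_comm]
  · intro m
    rw [Polynomial.coeff_C_mul]
    exact mul_nonneg hPn.le (coeff_nonneg_prod _ hd m)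
  · rw [Polynomial.coeff_C_mul]
    refine mul_pos hPn ?_
    have h3 : n - T.rank = 0 + Z.card := by omega
    have h4 : (∏ i, (X + C (d i)) : ℝ[X]) =
        X ^ Z.card * ∏ i ∈ Finset.univ.filter (fun i => ¬ d i = 0), (X + C (d i)) := by
      rw [← Finset.prod_filter_mul_prod_filter_not Finset.univ (fun i => d i = 0)]
      congr 1
      rw [← hZ, ← Finset.prod_const]
      refine Finset.prod_congr rfl fun i hi => ?_
      have : d i = 0 := by simpa [hZ] using hi
      rw [this, C_0, add_zero]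
    rw [h3, h4, Polynomial.coeff_X_pow_mul, Polynomial.coeff_zero_eq_eval_zero,
      Polynomial.eval_prod]
    refine Finset.prod_pos fun i hi => ?_
    have : d i ≠ 0 := by simpa using hi
    simpa using lt_of_le_of_ne (hd i) (Ne.symm this)

theorem cf_nonneg (hw : w.PosDef) (hT : T.PosSemidef) (m : ℕ) : 0 ≤ cf m T w := by
  obtain ⟨Q, h1, h2, h3, -⟩ := exists_poly hw hT
  rw [cf_eq m h1 h2]
  exact h3 m

theorem cf_pos (hw : w.PosDef) (hT : T.PosSemidef) : 0 < cf (n - T.rank) T w := by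
  obtain ⟨Q, h1, h2, -, h4⟩ := exists_poly hw hT
  rw [cf_eq _ h1 h2]
  exact h4

theorem cf_mul_pow_le (hw : w.PosDef) (hT : T.PosSemidef) (m : ℕ) {t : ℝ} (ht : 0 ≤ t) :
    cf m T w * t ^ m ≤ (T + (t : ℂ) • w).det.re := by
  obtain ⟨Q, h1, h2, h3, -⟩ := exists_poly hw hT
  rw [cf_eq m h1 h2, ← h2]
  exact coeff_le_eval h3 m ht

end poly

variable {n : ℕ} {X : Type*} [TopologicalSpace X] [ChartedSpace (Cm n) X]
  [IsManifold 𝓘(ℂ, Cm n) ω X] [T2Space X] [CompactSpace X]

/-- the integral of a nonnegative density which is positive at a point is positive -/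
theorem intX_pos' {D : Chart n X → Cm n → ℝ} (hD : IsDensity D)
    (h : ∀ e x, At e x → 0 ≤ D e (e x)) {e₀ : Chart n X} {x : X} (hx₀ : At e₀ x)
    (h0 : 0 < D e₀ (e₀ x)) : 0 < intX D := by
  set P := part n X with hP
  have h1 : ∃ i, 0 < P.ρ i x := by
    by_contra hcon
    push Not at hcon
    have := P.sum x
    have h2 : ∑ i, P.ρ i x ≤ 0 := Finset.sum_nonpos fun i _ => hcon i
    linarith
  obtain ⟨i, hi⟩ := h1
  have hDi : ∀ j, ∀ z ∈ (P.e j).target, 0 ≤ D (P.e j) z := fun j z hz => by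
    have := h (P.e j) ((P.e j).symm z) ⟨P.mem j, (P.e j).map_target hz⟩
    rwa [(P.e j).right_inv hz] at this
  unfold intX
  rw [← hP]
  refine Finset.sum_pos' (fun j _ => ?_) ⟨i, Finset.mem_univ i, ?_⟩
  · refine setIntegral_nonneg (P.e j).open_target.measurableSet fun z hz => ?_
    exact mul_nonneg (P.nonneg j _) (hDi j z hz)
  · have hx : x ∈ (P.e i).source := P.supp i (subset_tsupport _ (by
      simp only [Function.mem_support]; exact hi.ne'))
    have hxi : At (P.e i) x := ⟨P.mem i, hx⟩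
    have hDx : 0 < D (P.e i) (P.e i x) := by
      have := hD.change e₀ (P.e i) x hx₀ hxi
      rw [this] at h0
      exact pos_of_mul_pos_left h0 (by positivity)
    rw [setIntegral_pos_iff_support_of_nonneg_ae]
    · have hopen : IsOpen ((P.e i).target ∩ (fun z => P.ρ i ((P.e i).symm z) * D (P.e i) z) ⁻¹'
          Ioi 0) :=
        (((P.cont i).comp_continuousOn (P.e i).continuousOn_symm).mul
          (hD.continuousOn (P.mem i))).isOpen_inter_preimage (P.e i).open_target isOpen_Ioi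
      refine (hopen.measure_pos volume ⟨P.e i x, ?_⟩).trans_le (measure_mono ?_)
      · refine ⟨(P.e i).map_source hx, ?_⟩
        change 0 < P.ρ i ((P.e i).symm (P.e i x)) * D (P.e i) (P.e i x)
        rw [(P.e i).left_inv hx]; exact mul_pos hi hDx
      · rintro z ⟨hz1, hz2⟩
        refine ⟨?_, hz1⟩
        simp only [Function.mem_support]
        exact (show 0 < P.ρ i ((P.e i).symm z) * D (P.e i) z from hz2).ne'
    · filter_upwards [self_mem_ae_restrict (P.e i).open_target.measurableSet] with z hz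
      exact mul_nonneg (P.nonneg i _) (hDi i z hz)
    · exact INT.integrableOn_part P hD i

theorem exists_lower {w T : Chart n X → Cm n → Matrix (Fin n) (Fin n) ℂ} (hw : IsHermitian w)
    (hTf : IsForm T) (hTs : ∀ e x, At e x → ∀ i j, ContDiffAt ℝ ∞ (fun z => T e z i j) (e x))
    (hT : ∀ e x, At e x → (T e (e x)).PosSemidef) {ν : ℕ} {e₀ : Chart n X} {x₀ : X}
    (hx₀ : At e₀ x₀) (hν : (T e₀ (e₀ x₀)).rank = ν) :
    ∃ c : ℝ, 0 < c ∧ ∀ t : ℝ, 0 ≤ t →
      c * t ^ (n - ν) ≤ intX (fun e z => (T e z + (t : ℂ) • w e z).det.re) := by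
  have hD : ∀ t : ℝ, IsDensity (fun (e : Chart n X) z => (T e z + (t : ℂ) • w e z).det.re) := by
    intro t
    have hwf : IsForm w := hw.isForm
    refine INT.isDensity_det (hTf.add (hwf.smul (t : ℂ))) fun e x hx i j => ?_
    exact (hTs e x hx i j).add (contDiffAt_const.mul (hw.smooth e x hx i j))
  have hcd : IsDensity (fun (e : Chart n X) z => cf (n - ν) (T e z) (w e z)) := by
    unfold cf
    exact IsDensity.sum _ fun j _ => (hD (j : ℝ)).const_mul _
  refine ⟨intX (fun e z => cf (n - ν) (T e z) (w e z)), ?_, fun t ht => ?_⟩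
  · refine intX_pos' hcd (fun e x hx => cf_nonneg (hw.posDef e x hx) (hT e x hx) _) hx₀ ?_
    rw [← hν]
    exact cf_pos (hw.posDef e₀ x₀ hx₀) (hT e₀ x₀ hx₀)
  · rw [mul_comm, ← INT.intX_const_mul]
    refine INT.intX_mono (hcd.const_mul _) (hD t) fun e x hx => ?_
    rw [mul_comm]
    exact cf_mul_pow_le (hw.posDef e x hx) (hT e x hx) _ ht

end Vale.Agent.P299.H167
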