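import Vale.Agent.P299.H167.Cut
import Vale.Agent.P299.H167.Low
import Vale.Agent.P272.K.AMP.Green2
import Vale.Agent.P272.K.INT.Gronwall
import Vale.Agent.P272.K.QN.H527.Tools

/-!
# The degeneration argument: `∫_{E > 0} tr_a β det a` depends only on the class of `a`
-/

set_option autoImplicit false
set_option linter.unusedSectionVars false

open scoped Manifold ContDiff ComplexOrder Matrix Topology
open Matrix MeasureTheory Set Filter

noncomputable section

namespace Vale.Agent.P299.H167

open Vale.Agent.P272.K Vale.Agent.P272.K.AMP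
open INT (IsDensity intX IsClosedForm IsPolyN lag)

variable {n : ℕ} {X : Type*} [TopologicalSpace X] [ChartedSpace (Cm n) X]
  [IsManifold 𝓘(ℂ, Cm n) ω X]
  {a A b c G g w η : Chart n X → Cm n → Matrix (Fin n) (Fin n) ℂ} {u v E : X → ℝ}

/-- a closed positive definite form is a Kähler metric -/
theorem isKahler_of (hb : IsClosedForm b) (hp : ∀ e x, At e x → (b e (e x)).PosDef) :
    IsKahler b where
  smooth := hb.smooth
  posDef := hp
  change := hb.form
  closed e x h i j k := hb.closed e x h k i j

theorem hess_smul_fn (s : ℝ) (hu : SmoothFn (n := n) u) {e : Chart n X} {x : X} (hx : At e x) :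
    hess (fun y => s * u y) e (e x) = (s : ℂ) • hess u e (e x) := hess_const_mul' s hu hx

/-- the form `b + s i∂∂̄u` -/
def addS (b : Chart n X → Cm n → Matrix (Fin n) (Fin n) ℂ) (u : X → ℝ) (s : ℝ) (e : Chart n X)
    (z : Cm n) : Matrix (Fin n) (Fin n) ℂ := b e z + (s : ℂ) • hess u e z

theorem isClosedForm_addS (hb : IsClosedForm b) (hu : SmoothFn (n := n) u) (s : ℝ) :
    IsClosedForm (addS b u s) :=
  hb.add ((INT.isClosedForm_cHess hu).smul (s : ℂ))

section trace

variable {x : X}

theorem trX_nonneg (hg : IsHermitian g) (hb : ∀ e x, At e x → (b e (e x)).PosSemidef) (x : X) :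
    0 ≤ trX g b x := by
  have hx := at_chartAt (n := n) x
  exact (Complex.le_def.1 (C2.trace_mul_nonneg (hg.posDef _ x hx).inv.posSemidef (hb _ x hx))).1

theorem trX_add (x : X) : trX g (fun e z => b e z + c e z) x = trX g b x + trX g c x := by
  unfold trX atX trE
  rw [Matrix.mul_add, Matrix.trace_add, Complex.add_re]

theorem trX_smul (s : ℝ) (x : X) : trX g (fun e z => (s : ℂ) • b e z) x = s * trX g b x := by
  unfold trX atX trE
  rw [Matrix.mul_smul, Matrix.trace_smul, smul_eq_mul, Complex.re_ofReal_mul]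

theorem trX_hess (x : X) : trX g (hess u) x = lapX g u x := rfl

theorem trX_self (hg : IsHermitian g) (x : X) : trX g g x = n := by
  have hx := at_chartAt (n := n) x
  unfold trX atX trE
  rw [Matrix.nonsing_inv_mul _ (isUnit_iff_ne_zero.2 (hg.posDef _ x hx).det_pos.ne')]
  simp

end trace

section integrals

variable [T2Space X] [CompactSpace X]

/-- `∫ tr_g w dv_g ≤ ∫ det (g + w)` -/
theorem IX_trX_le (hg : IsHermitian g) (hb : IsForm b)
    (hs : ∀ e x, At e x → ∀ i j, ContDiffAt ℝ ∞ (fun y => b e y i j) (e x))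
    (hp : ∀ e x, At e x → (b e (e x)).PosSemidef) :
    IX g (trX g b) ≤ intX (fun (e : Chart n X) z => (g e z + b e z).det.re) := by
  have hc : Continuous (trX g b) := INT.SmoothFn.continuous (smoothFn_trX hg hb hs)
  refine INT.intX_mono (isDensity_IX hg hc)
    (INT.isDensity_det (hg.isForm.add hb) fun e x hx i j => (hg.smooth e x hx i j).add
      (hs e x hx i j)) fun e x hx => ?_
  have h1 : trX g b (e.symm (e x)) = trE g b e (e x) := by
    rw [e.left_inv hx.2]; exact trX_eq hg hb hx
  rw [h1]
  exact det_mul_trace_le (hg.posDef e x hx) (hp e x hx)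

/-- `|∫ u Δ_g v dv_g| ≤ 2 M c ∫ tr_g w dv_g` if `|u| ≤ M` and `i∂∂̄v ≥ -c w` -/
theorem abs_IX_mul_lap_le (hg : IsKahler g) (hw : IsHermitian w) (hv : SmoothFn (n := n) v)
    (hu : SmoothFn (n := n) u) {k M : ℝ} (hk : 0 ≤ k) (hM : ∀ x, |u x| ≤ M) (hM0 : 0 ≤ M)
    (hvk : ∀ e x, At e x → (hess v e (e x) + (k : ℂ) • w e (e x)).PosSemidef) :
    |IX g (fun x => u x * lapX g v x)| ≤ 2 * M * k * IX g (trX g w) := by
  have hgH := hg.toIsHermitian
  have cu := INT.SmoothFn.continuous hu
  have cL := INT.SmoothFn.continuous (smoothFn_lapX hgH hv)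
  have cT : Continuous (trX g w) := INT.SmoothFn.continuous (smoothFn_trX hgH hw.isForm hw.smooth)
  have hT0 : ∀ x, 0 ≤ trX g w x := trX_nonneg hgH fun e x hx => (hw.posDef e x hx).posSemidef
  have hL : ∀ x, 0 ≤ lapX g v x + k * trX g w x := by
    intro x
    have hx := at_chartAt (n := n) x
    have h1 := (Complex.le_def.1 (C2.trace_mul_nonneg (hgH.posDef _ x hx).inv.posSemidef
      (hvk _ x hx))).1
    have h2 : ((g (chartAt (Cm n) x) (chartAt (Cm n) x x))⁻¹ *
        (hess v (chartAt (Cm n) x) (chartAt (Cm n) x x) +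
          (k : ℂ) • w (chartAt (Cm n) x) (chartAt (Cm n) x x))).trace.re =
        lapX g v x + k * trX g w x := by
      rw [Matrix.mul_add, Matrix.trace_add, Complex.add_re, Matrix.mul_smul, Matrix.trace_smul,
        smul_eq_mul, Complex.re_ofReal_mul]
      rfl
    rw [h2] at h1
    exact h1
  have habs : ∀ x, |u x * lapX g v x| ≤ M * (lapX g v x + 2 * k * trX g w x) := by
    intro x
    rw [abs_mul]
    have h1 := hL x
    have h2 := mul_nonneg hk (hT0 x)
    refine mul_le_mul (hM x) ?_ (abs_nonneg _) hM0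
    rw [abs_le]
    constructor <;> nlinarith
  have hI : IX g (fun x => M * (lapX g v x + 2 * k * trX g w x)) = 2 * M * k * IX g (trX g w) := by
    have h1 := IX_const_mul (g := g) (f := fun x => lapX g v x + 2 * k * trX g w x) M
    have h2 := IX_add hgH (f := lapX g v) (f' := fun x => 2 * k * trX g w x) cL
      (continuous_const.mul cT)
    have h3 := IX_const_mul (g := g) (f := trX g w) (2 * k)
    rw [h1, h2, h3, IX_lapX hg hv]
    ring
  have cR : Continuous (fun x => M * (lapX g v x + 2 * k * trX g w x)) :=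
    continuous_const.mul (cL.add (continuous_const.mul cT))
  rw [abs_le]
  constructor
  · have := IX_mono hgH (f := fun x => -(M * (lapX g v x + 2 * k * trX g w x)))
      (f' := fun x => u x * lapX g v x) cR.neg (cu.mul cL) fun x => (abs_le.1 (habs x)).1
    rw [IX_neg, hI] at this
    exact this
  · have := IX_mono hgH (f' := fun x => M * (lapX g v x + 2 * k * trX g w x))
      (f := fun x => u x * lapX g v x) (cu.mul cL) cR fun x => (abs_le.1 (habs x)).2
    rw [hI] at this
    exact this

lemma isPolyN_const_mul {m : ℕ} {f : ℝ → ℝ} (hf : IsPolyN m f) (r : ℝ) :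
    IsPolyN m fun t => r * f t := by
  obtain ⟨a, ha⟩ := hf
  refine ⟨fun k => r * a k, fun t => ?_⟩
  show r * f t = _
  rw [ha, Finset.mul_sum]
  exact Finset.sum_congr rfl fun k _ => by ring

lemma deriv_const_mul_det (r : ℝ) (P Q : Matrix (Fin n) (Fin n) ℂ) (s : ℝ)
    (h : (P + (s : ℂ) • Q).PosDef) :
    deriv (fun t : ℝ => r * (P + (t : ℂ) • Q).det.re) s =
      r * (((P + (s : ℂ) • Q)⁻¹ * Q).trace.re * (P + (s : ℂ) • Q).det.re) := by
  obtain ⟨h1, h2⟩ := INT.posDef_det_re h
  have h3 := (INT.hasDerivAt_det_line P Q s).const_mul r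
  rw [h3.deriv, INT.sum_det_updateRow (isUnit_iff_ne_zero.2 h.det_pos.ne'), Complex.mul_re, h2,
    mul_zero, sub_zero]

/-- comparison of `∫ v det (G + i∂∂̄u)` and `∫ v det G` -/
theorem abs_sub_le (hG : IsClosedForm G) (hw : IsKahler w) (hv : SmoothFn (n := n) v)
    (hu : SmoothFn (n := n) u) {k M : ℝ} (hk : 0 ≤ k) (hM : ∀ x, |u x| ≤ M) (hM0 : 0 ≤ M)
    (hvk : ∀ e x, At e x → (hess v e (e x) + (k : ℂ) • w e (e x)).PosSemidef)
    (h0 : ∀ e x, At e x → (G e (e x)).PosDef)
    (h1 : ∀ e x, At e x → (G e (e x) + hess u e (e x)).PosDef) :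
    |intX (fun (e : Chart n X) z => v (e.symm z) * (G e z + hess u e z).det.re) -
      intX (fun (e : Chart n X) z => v (e.symm z) * (G e z).det.re)| ≤
      2 * M * k * intX (fun (e : Chart n X) z => (G e z + w e z).det.re) := by
  have cv := INT.SmoothFn.continuous hv
  have hpos : ∀ s ∈ Icc (0 : ℝ) 1, ∀ e x, At e x → (addS G u s e (e x)).PosDef := by
    intro s hs e x hx
    have e1 : addS G u s e (e x) =
        (1 - s) • G e (e x) + s • (G e (e x) + hess u e (e x)) := by
      ext i j
      simp only [addS, Matrix.add_apply, Matrix.smul_apply, smul_eq_mul, Complex.real_smul]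
      push_cast
      ring
    rw [e1]
    rcases eq_or_lt_of_le hs.1 with h | h
    · rw [← h, sub_zero, one_smul, zero_smul, add_zero]
      exact h0 e x hx
    · refine Matrix.PosDef.posSemidef_add ?_ ((h1 e x hx).smul h)
      exact (h0 e x hx).posSemidef.smul (by linarith [hs.2])
  have hK : ∀ s ∈ Icc (0 : ℝ) 1, IsKahler (addS G u s) := fun s hs =>
    isKahler_of (isClosedForm_addS hG hu s) (hpos s hs)
  set F : ℝ → ℝ := fun s => intX (fun (e : Chart n X) z => v (e.symm z) * (addS G u s e z).det.re)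
    with hF
  have hderiv : ∀ s ∈ Icc (0 : ℝ) 1, HasDerivAt F
      (IX (addS G u s) (fun x => v x * lapX (addS G u s) u x)) s := by
    intro s hs
    have h := INT.hasDerivAt_intX (m := n)
      (D := fun t (e : Chart n X) z => v (e.symm z) * (addS G u t e z).det.re)
      (fun t => ((isClosedForm_addS hG hu t).isDensity).smul cv)
      (fun e x _ => isPolyN_const_mul (INT.isPolyN_det _ _) _) s
    have h2 : (intX fun (e : Chart n X) z =>
        deriv (fun s => v (e.symm z) * (addS G u s e z).det.re) s) =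
        IX (addS G u s) (fun x => v x * lapX (addS G u s) u x) := by
      refine INT.intX_congr fun e x hx => ?_
      have h3 : lapX (addS G u s) u (e.symm (e x)) = lapE (addS G u s) u e (e x) := by
        rw [e.left_inv hx.2]; exact lapX_eq (hK s hs).toIsHermitian hu hx
      show _ = v (e.symm (e x)) * lapX (addS G u s) u (e.symm (e x)) * (addS G u s e (e x)).det.re
      rw [h3]
      have := deriv_const_mul_det (v (e.symm (e x))) (G e (e x)) (hess u e (e x)) s
        (hpos s hs e x hx)
      refine this.trans ?_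
      rw [← mul_assoc]
      rfl
    rw [← h2]
    exact h
  have hbound : ∀ s ∈ Icc (0 : ℝ) 1,
      |IX (addS G u s) (fun x => v x * lapX (addS G u s) u x)| ≤
      2 * M * k * intX (fun (e : Chart n X) z => (G e z + w e z).det.re) := by
    intro s hs
    rw [IX_green (hK s hs) hu hv]
    refine (abs_IX_mul_lap_le (hK s hs) hw.toIsHermitian hv hu hk hM hM0 hvk).trans ?_
    refine mul_le_mul_of_nonneg_left ?_ (by positivity)
    refine (IX_trX_le (hK s hs).toIsHermitian hw.toIsHermitian.isForm hw.smooth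
      fun e x hx => (hw.posDef e x hx).posSemidef).trans (le_of_eq ?_)
    have hGw : IsClosedForm fun e z => G e z + w e z := hG.add (INT.IsKahler.isClosedForm hw)
    rw [← INT.intX_det_add_cHess hGw (sm_const_mul s hu)]
    refine INT.intX_congr fun e x hx => ?_
    have h4 : cHess (fun y => s * u (e.symm y)) (e x) = (s : ℂ) • hess u e (e x) :=
      hess_smul_fn s hu hx
    rw [h4, addS]
    congr 2
    abel
  have hmain := norm_image_sub_le_of_norm_deriv_le_segment_01' (f := F)
    (fun s hs => (hderiv s hs).hasDerivWithinAt)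
    (fun s hs => by
      rw [Real.norm_eq_abs]
      exact hbound s ⟨hs.1, hs.2.le⟩)
  have e1 : F 1 = intX (fun (e : Chart n X) z => v (e.symm z) * (G e z + hess u e z).det.re) := by
    simp only [hF, addS, Complex.ofReal_one, one_smul]
  have e0 : F 0 = intX (fun (e : Chart n X) z => v (e.symm z) * (G e z).det.re) := by
    simp only [hF, addS, Complex.ofReal_zero, zero_smul, add_zero]
  rw [e1, e0, Real.norm_eq_abs] at hmain
  exact hmain

/-- extraction of the linear coefficient -/
theorem extract (ha : IsHermitian a) (hbf : IsForm b)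
    (hbs : ∀ e x, At e x → ∀ i j, ContDiffAt ℝ ∞ (fun y => b e y i j) (e x))
    (hv : Continuous v) (κ : ℝ) :
    κ * IX a (fun x => v x * trX a b x) =
      ∑ j : Fin (n + 1), deriv (lag n j) 0 *
        intX (fun (e : Chart n X) z => v (e.symm z) * (a e z + ((j * κ : ℝ) : ℂ) • b e z).det.re) := by
  have hbf' : ∀ t : ℝ, IsForm (fun (e : Chart n X) z => a e z + ((t * κ : ℝ) : ℂ) • b e z) := fun t =>
    ha.isForm.add (hbf.smul _)
  have hD : ∀ t : ℝ, IsDensity (fun (e : Chart n X) z =>
      v (e.symm z) * (a e z + ((t * κ : ℝ) : ℂ) • b e z).det.re) := fun t =>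
    (INT.isDensity_det (hbf' t) fun e x hx i j => (ha.smooth e x hx i j).add
      (contDiffAt_const.mul (hbs e x hx i j))).smul hv
  have hj : ∀ j : Fin (n + 1), IsDensity fun (e : Chart n X) z => deriv (lag n j) 0 *
      (v (e.symm z) * (a e z + ((j * κ : ℝ) : ℂ) • b e z).det.re) :=
    fun j => (hD j).const_mul _
  have e1 : ∀ j : Fin (n + 1), deriv (lag n j) 0 *
        intX (fun (e : Chart n X) z => v (e.symm z) * (a e z + ((j * κ : ℝ) : ℂ) • b e z).det.re) =
      intX (fun (e : Chart n X) z => deriv (lag n j) 0 *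
        (v (e.symm z) * (a e z + ((j * κ : ℝ) : ℂ) • b e z).det.re)) := fun j =>
    (INT.intX_const_mul _ _).symm
  simp only [e1]
  rw [← INT.intX_sum _ fun j _ => hj j, IX, ← INT.intX_const_mul]
  refine INT.intX_congr fun e x hx => ?_
  have hp : IsPolyN n fun t : ℝ => v (e.symm (e x)) *
      (a e (e x) + (t : ℂ) • ((κ : ℂ) • b e (e x))).det.re :=
    isPolyN_const_mul (INT.isPolyN_det _ _) _
  have h1 := hp.deriv 0
  have h2 := deriv_const_mul_det (v (e.symm (e x))) (a e (e x)) ((κ : ℂ) • b e (e x)) 0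
    (by simpa using ha.posDef e x hx)
  simp only [Complex.ofReal_zero, zero_smul, add_zero] at h2
  have h3 : trX a b (e.symm (e x)) = trE a b e (e x) := by
    rw [e.left_inv hx.2]; exact trX_eq ha hbf hx
  have h4 : ((a e (e x))⁻¹ * (κ : ℂ) • b e (e x)).trace.re = κ * trE a b e (e x) := by
    rw [Matrix.mul_smul, Matrix.trace_smul, smul_eq_mul, Complex.re_ofReal_mul]
    rfl
  rw [h4] at h2
  show κ * (v (e.symm (e x)) * trX a b (e.symm (e x)) * (a e (e x)).det.re) = _
  rw [h3]
  calc κ * (v (e.symm (e x)) * trE a b e (e x) * (a e (e x)).det.re)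
      = v (e.symm (e x)) * (κ * trE a b e (e x) * (a e (e x)).det.re) := by ring
    _ = deriv (fun t : ℝ => v (e.symm (e x)) *
      (a e (e x) + (t : ℂ) • ((κ : ℂ) • b e (e x))).det.re) 0 := h2.symm
    _ = ∑ j : Fin (n + 1), deriv (lag n j) 0 * (v (e.symm (e x)) *
      (a e (e x) + (((j : ℕ) : ℝ) : ℂ) • ((κ : ℂ) • b e (e x))).det.re) := h1
    _ = _ := by
      refine Finset.sum_congr rfl fun j _ => ?_
      rw [smul_smul, ← Complex.ofReal_mul]

end integrals

end Vale.Agent.P299.H167
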