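import Mathlib.Analysis.SpecialFunctions.SmoothTransition
import Mathlib.MeasureTheory.Integral.IntervalIntegral.FundThmCalculus
import Vale.Agent.P272.K.AMP.Calc

/-!
# Cutoff functions `χ (log E)`
-/

set_option autoImplicit false

open scoped Manifold ContDiff ComplexOrder Matrix Topology
open Matrix MeasureTheory Set Filter

noncomputable section

namespace Vale.Agent.P299.H167

open Vale.Agent.P272.K Vale.Agent.P272.K.AMP

/-- a primitive of the smooth transition function: `0` on `x ≤ 0`, convex, slope `1` on `x ≥ 1` -/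
def Pr (x : ℝ) : ℝ := ∫ s in (0 : ℝ)..x, Real.smoothTransition s

lemma hasDerivAt_Pr (x : ℝ) : HasDerivAt Pr (Real.smoothTransition x) x :=
  intervalIntegral.integral_hasDerivAt_right
    (Real.smoothTransition.continuous.intervalIntegrable _ _)
    (Real.smoothTransition.continuous.stronglyMeasurableAtFilter _ _)
    Real.smoothTransition.continuous.continuousAt

lemma deriv_Pr : deriv Pr = Real.smoothTransition := funext fun x => (hasDerivAt_Pr x).deriv

lemma contDiff_Pr : ContDiff ℝ ∞ Pr := by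
  rw [contDiff_infty_iff_deriv, deriv_Pr]
  exact ⟨fun x => (hasDerivAt_Pr x).differentiableAt, Real.smoothTransition.contDiff⟩

lemma Pr_mono : Monotone Pr :=
  monotone_of_deriv_nonneg (fun x => (hasDerivAt_Pr x).differentiableAt) fun x => by
    rw [deriv_Pr]; exact Real.smoothTransition.nonneg x

lemma Pr_of_nonpos {x : ℝ} (hx : x ≤ 0) : Pr x = 0 := by
  unfold Pr
  rw [intervalIntegral.integral_symm, neg_eq_zero]
  refine intervalIntegral.integral_zero_ae (Eventually.of_forall fun s hs => ?_)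
  rw [uIoc_of_le hx] at hs
  exact Real.smoothTransition.zero_of_nonpos hs.2

lemma Pr_nonneg (x : ℝ) : 0 ≤ Pr x := by
  rcases le_total x 0 with h | h
  · rw [Pr_of_nonpos h]
  · rw [← Pr_of_nonpos (le_refl (0 : ℝ))]; exact Pr_mono h

lemma Pr_pos {x : ℝ} (hx : 0 < x) : 0 < Pr x := by
  unfold Pr
  refine intervalIntegral.intervalIntegral_pos_of_pos_on
    (Real.smoothTransition.continuous.intervalIntegrable _ _) (fun s hs => ?_) hx
  exact Real.smoothTransition.pos_of_pos hs.1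

lemma Pr_eq_zero_iff {x : ℝ} : Pr x = 0 ↔ x ≤ 0 := by
  constructor
  · intro h
    by_contra hx
    exact (Pr_pos (not_le.1 hx)).ne' h
  · exact Pr_of_nonpos

lemma deriv_smoothTransition_nonneg (x : ℝ) : 0 ≤ deriv Real.smoothTransition x :=
  Real.smoothTransition.monotone.deriv_nonneg

lemma deriv_smoothTransition_of_one_lt {x : ℝ} (hx : 1 < x) : deriv Real.smoothTransition x = 0 := by
  have : Real.smoothTransition =ᶠ[𝓝 x] fun _ => 1 := by
    filter_upwards [Ioi_mem_nhds hx] with y hy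
    exact Real.smoothTransition.one_of_one_le (le_of_lt hy)
  rw [this.deriv_eq, deriv_const]

/-- `Pr ((2/k) log t + c)` for `t > 0` -/
def LP (k c t : ℝ) : ℝ := if 0 < t then Pr (2 / k * Real.log t + c) else 0

lemma LP_of_pos {k c t : ℝ} (ht : 0 < t) : LP k c t = Pr (2 / k * Real.log t + c) := if_pos ht

lemma LP_nonneg (k c t : ℝ) : 0 ≤ LP k c t := by
  unfold LP; split_ifs
  · exact Pr_nonneg _
  · exact le_rfl

lemma arg_le_zero_iff {k c t : ℝ} (hk : 0 < k) (ht : 0 < t) :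
    2 / k * Real.log t + c ≤ 0 ↔ t ≤ Real.exp (-(c * k / 2)) := by
  rw [← Real.log_le_iff_le_exp ht]
  constructor
  · intro h
    have h1 : 2 / k * Real.log t ≤ -c := by linarith
    have h2 : Real.log t = k / 2 * (2 / k * Real.log t) := by field_simp
    rw [h2]
    have := mul_le_mul_of_nonneg_left h1 (by positivity : 0 ≤ k / 2)
    linarith
  · intro h
    have := mul_le_mul_of_nonneg_left h (by positivity : 0 ≤ 2 / k)
    have h3 : 2 / k * -(c * k / 2) = -c := by field_simp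
    linarith

lemma LP_of_le {k c t : ℝ} (hk : 0 < k) (ht : t ≤ Real.exp (-(c * k / 2))) : LP k c t = 0 := by
  unfold LP
  split_ifs with h
  · exact Pr_of_nonpos ((arg_le_zero_iff hk h).2 ht)
  · rfl

lemma LP_eventually_zero {k c t : ℝ} (hk : 0 < k) (ht : t < Real.exp (-(c * k / 2))) :
    LP k c =ᶠ[𝓝 t] fun _ => 0 := by
  filter_upwards [Iio_mem_nhds ht] with s hs
  exact LP_of_le hk (le_of_lt hs)

lemma LP_eventually_eq {k c t : ℝ} (ht : 0 < t) :
    LP k c =ᶠ[𝓝 t] fun s => Pr (2 / k * Real.log s + c) := by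
  filter_upwards [Ioi_mem_nhds ht] with s hs
  exact LP_of_pos hs

lemma contDiff_LP {k c : ℝ} (hk : 0 < k) : ContDiff ℝ ∞ (LP k c) := by
  rw [contDiff_iff_contDiffAt]
  intro t
  rcases lt_or_ge t (Real.exp (-(c * k / 2))) with h | h
  · exact contDiffAt_const.congr_of_eventuallyEq (LP_eventually_zero hk h)
  · have ht : 0 < t := (Real.exp_pos _).trans_le h
    refine ContDiffAt.congr_of_eventuallyEq ?_ (LP_eventually_eq ht)
    refine contDiff_Pr.contDiffAt.comp t ?_
    exact (contDiffAt_const.mul (Real.contDiffAt_log.2 ht.ne')).add contDiffAt_const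

lemma hasDerivAt_LP {k c t : ℝ} (ht : 0 < t) :
    HasDerivAt (LP k c) (Real.smoothTransition (2 / k * Real.log t + c) * (2 / k / t)) t := by
  have h1 : HasDerivAt (fun s => 2 / k * Real.log s + c) (2 / k / t) t := by
    have := ((Real.hasDerivAt_log ht.ne').const_mul (2 / k)).add_const c
    simpa [div_eq_mul_inv] using this
  exact ((hasDerivAt_Pr _).comp t h1).congr_of_eventuallyEq (LP_eventually_eq ht)

lemma deriv_LP {k c t : ℝ} (ht : 0 < t) :
    deriv (LP k c) t = 2 / k * Real.smoothTransition (2 / k * Real.log t + c) * t⁻¹ := by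
  rw [(hasDerivAt_LP ht).deriv]
  ring

lemma deriv_deriv_LP {k c t : ℝ} (ht : 0 < t) :
    deriv (deriv (LP k c)) t =
      (2 / k) ^ 2 * deriv Real.smoothTransition (2 / k * Real.log t + c) * (t ^ 2)⁻¹ -
        2 / k * Real.smoothTransition (2 / k * Real.log t + c) * (t ^ 2)⁻¹ := by
  have h0 : deriv (LP k c) =ᶠ[𝓝 t] fun s =>
      2 / k * Real.smoothTransition (2 / k * Real.log s + c) * s⁻¹ := by
    filter_upwards [Ioi_mem_nhds ht] with s hs
    exact deriv_LP hs
  rw [h0.deriv_eq]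
  have h1 : HasDerivAt (fun s => 2 / k * Real.log s + c) (2 / k / t) t := by
    have := ((Real.hasDerivAt_log ht.ne').const_mul (2 / k)).add_const c
    simpa [div_eq_mul_inv] using this
  have h2 : HasDerivAt Real.smoothTransition
      (deriv Real.smoothTransition (2 / k * Real.log t + c)) (2 / k * Real.log t + c) :=
    ((Real.smoothTransition.contDiff (n := 1)).differentiable (by norm_num) _).hasDerivAt
  have h3 := ((h2.comp t h1).const_mul (2 / k)).mul (hasDerivAt_inv ht.ne')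
  refine (HasDerivAt.deriv h3).trans ?_
  simp only [Function.comp_def]
  field_simp
  ring

lemma deriv_LP_of_lt {k c t : ℝ} (hk : 0 < k) (ht : t < Real.exp (-(c * k / 2))) :
    deriv (LP k c) t = 0 := by
  rw [(LP_eventually_zero hk ht).deriv_eq, deriv_const]

lemma deriv_deriv_LP_of_lt {k c t : ℝ} (hk : 0 < k) (ht : t < Real.exp (-(c * k / 2))) :
    deriv (deriv (LP k c)) t = 0 := by
  have : deriv (LP k c) =ᶠ[𝓝 t] fun _ => 0 := by
    filter_upwards [Iio_mem_nhds ht] with s hs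
    exact deriv_LP_of_lt hk hs
  rw [this.deriv_eq, deriv_const]

section X

variable {n : ℕ} {X : Type*} [TopologicalSpace X] [ChartedSpace (Cm n) X]
  {E : X → ℝ} {η w : Chart n X → Cm n → Matrix (Fin n) (Fin n) ℂ} {e : Chart n X} {x : X}

/-- the complex Hessian of `log E`, by its formula -/
def Lg (E : X → ℝ) (e : Chart n X) (z : Cm n) : Matrix (Fin n) (Fin n) ℂ :=
  (((E (e.symm z))⁻¹ : ℝ) : ℂ) • hess E e z - ((((E (e.symm z)) ^ 2)⁻¹ : ℝ) : ℂ) • dd E E e z

/-- `β = η + i∂∂̄ log E` -/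
def bet (η : Chart n X → Cm n → Matrix (Fin n) (Fin n) ℂ) (E : X → ℝ) (e : Chart n X)
    (z : Cm n) : Matrix (Fin n) (Fin n) ℂ := η e z + Lg E e z

omit [ChartedSpace (Cm n) X] in
lemma dd_self_posSemidef (E : X → ℝ) (e : Chart n X) (z : Cm n) : (dd E E e z).PosSemidef :=
  gm_self_posSemidef _ z

lemma smul_psd {c : ℝ} (hc : 0 ≤ c) {M : Matrix (Fin n) (Fin n) ℂ} (hM : M.PosSemidef) :
    ((c : ℂ) • M).PosSemidef := by
  have : (c : ℂ) • M = c • M := by ext i j; simp
  rw [this]; exact hM.smul hc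

lemma sm_LP {k c : ℝ} (hk : 0 < k) (hE : SmoothFn (n := n) E) :
    SmoothFn (n := n) (fun x => LP k c (E x)) :=
  sm_comp (φ := LP k c) (fun x => (contDiff_LP hk).contDiffAt) hE

lemma hess_LP_pos {k c : ℝ} (hk : 0 < k) (hE : SmoothFn (n := n) E) (hx : At e x)
    (h0 : 0 < E x) : hess (fun x => LP k c (E x)) e (e x) =
      ((2 / k * Real.smoothTransition (2 / k * Real.log (E x) + c) : ℝ) : ℂ) • Lg E e (e x) +
      (((2 / k) ^ 2 * deriv Real.smoothTransition (2 / k * Real.log (E x) + c) *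
        (E x ^ 2)⁻¹ : ℝ) : ℂ) • dd E E e (e x) := by
  rw [hess_comp' (φ := LP k c) ((contDiff_LP hk).contDiffAt.of_le (by norm_cast)) hE hx, deriv_LP h0,
    deriv_deriv_LP h0, Lg, e.left_inv hx.2]
  ext i j
  simp only [Matrix.add_apply, Matrix.sub_apply, Matrix.smul_apply, smul_eq_mul]
  push_cast
  ring

lemma hess_LP_zero {k c : ℝ} (hk : 0 < k) (hE : SmoothFn (n := n) E) (hx : At e x)
    (h0 : E x ≤ 0) : hess (fun x => LP k c (E x)) e (e x) = 0 := by
  have h1 : E x < Real.exp (-(c * k / 2)) := h0.trans_lt (Real.exp_pos _)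
  rw [hess_comp' (φ := LP k c) ((contDiff_LP hk).contDiffAt.of_le (by norm_cast)) hE hx,
    deriv_LP_of_lt hk h1, deriv_deriv_LP_of_lt hk h1]
  simp

/-- the cutoff function `u_k` -/
def cutU (k : ℝ) (E : X → ℝ) (x : X) : ℝ := (Pr 1)⁻¹ * LP k 1 (E x)

/-- the truncated `log E` (up to a constant) -/
def cutM (k : ℝ) (E : X → ℝ) (x : X) : ℝ := k / 2 * LP k 2 (E x)

lemma Pr_one_pos : 0 < Pr 1 := Pr_pos one_pos

lemma sm_cutU {k : ℝ} (hk : 0 < k) (hE : SmoothFn (n := n) E) : SmoothFn (n := n) (cutU k E) :=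
  sm_const_mul _ (sm_LP hk hE)

lemma sm_cutM {k : ℝ} (hk : 0 < k) (hE : SmoothFn (n := n) E) : SmoothFn (n := n) (cutM k E) :=
  sm_const_mul _ (sm_LP hk hE)

omit [ChartedSpace (Cm n) X] in
omit [TopologicalSpace X] in
lemma cutU_nonneg (k : ℝ) (x : X) : 0 ≤ cutU k E x :=
  mul_nonneg (inv_nonneg.2 Pr_one_pos.le) (LP_nonneg _ _ _)

omit [TopologicalSpace X] [ChartedSpace (Cm n) X] in
lemma cutU_le_one {k : ℝ} (hk : 0 < k) (h1 : E x ≤ 1) : cutU k E x ≤ 1 := by
  have h : LP k 1 (E x) ≤ Pr 1 := by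
    rcases le_or_gt (E x) 0 with h | h
    · rw [LP, if_neg (not_lt.2 h)]; exact Pr_one_pos.le
    · rw [LP_of_pos h]
      refine Pr_mono ?_
      have : Real.log (E x) ≤ 0 := Real.log_nonpos h.le h1
      have h2 : 2 / k * Real.log (E x) ≤ 0 := mul_nonpos_of_nonneg_of_nonpos (by positivity) this
      linarith
  unfold cutU
  rw [inv_mul_le_iff₀ Pr_one_pos, mul_one]
  exact h

omit [TopologicalSpace X] [ChartedSpace (Cm n) X] in
lemma cutU_mono {k K : ℝ} (hk : 0 < k) (hK : k ≤ K) (h1 : E x ≤ 1) :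
    cutU k E x ≤ cutU K E x := by
  refine mul_le_mul_of_nonneg_left ?_ (inv_nonneg.2 Pr_one_pos.le)
  rcases le_or_gt (E x) 0 with h | h
  · rw [LP, LP, if_neg (not_lt.2 h), if_neg (not_lt.2 h)]
  · rw [LP_of_pos h, LP_of_pos h]
    refine Pr_mono ?_
    have h3 : Real.log (E x) ≤ 0 := Real.log_nonpos h.le h1
    have h4 : 2 / K ≤ 2 / k := div_le_div_of_nonneg_left (by norm_num) hk hK
    nlinarith

omit [TopologicalSpace X] [ChartedSpace (Cm n) X] in
lemma cutU_ne_zero {k : ℝ} (h : cutU k E x ≠ 0) :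
    0 < E x ∧ 0 < 2 / k * Real.log (E x) + 1 := by
  have h0 : 0 < E x := by
    by_contra h0
    exact h (by rw [cutU, LP, if_neg h0, mul_zero])
  refine ⟨h0, ?_⟩
  by_contra h1
  exact h (by rw [cutU, LP_of_pos h0, Pr_of_nonpos (not_lt.1 h1), mul_zero])

lemma hess_cutU {k : ℝ} (hk : 0 < k) (hE : SmoothFn (n := n) E) (hx : At e x) :
    hess (cutU k E) e (e x) = (((Pr 1)⁻¹ : ℝ) : ℂ) • hess (fun x => LP k 1 (E x)) e (e x) :=
  hess_const_mul' _ (sm_LP hk hE) hx

lemma hess_cutM {k : ℝ} (hk : 0 < k) (hE : SmoothFn (n := n) E) (hx : At e x) :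
    hess (cutM k E) e (e x) = ((k / 2 : ℝ) : ℂ) • hess (fun x => LP k 2 (E x)) e (e x) :=
  hess_const_mul' _ (sm_LP hk hE) hx

/-- (C1): `i∂∂̄ u_k ≥ - (C/k) w` -/
theorem hess_cutU_add_posSemidef {k C : ℝ} (hk : 0 < k) (hC : 0 ≤ C)
    (hE : SmoothFn (n := n) E) (hx : At e x)
    (hw : (w e (e x)).PosSemidef)
    (hηC : ((C : ℂ) • w e (e x) - η e (e x)).PosSemidef)
    (hβ : 0 < E x → (bet η E e (e x)).PosSemidef) :
    (hess (cutU k E) e (e x) + ((2 * C * (Pr 1)⁻¹ / k : ℝ) : ℂ) • w e (e x)).PosSemidef := by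
  have hP := Pr_one_pos
  rcases le_or_gt (E x) 0 with h | h
  · rw [hess_cutU hk hE hx, hess_LP_zero hk hE hx h, smul_zero, zero_add]
    exact smul_psd (by positivity) hw
  · set σ := Real.smoothTransition (2 / k * Real.log (E x) + 1) with hσ
    have hσ0 : 0 ≤ σ := Real.smoothTransition.nonneg _
    have hσ1 : σ ≤ 1 := Real.smoothTransition.le_one _
    set τ := deriv Real.smoothTransition (2 / k * Real.log (E x) + 1) with hτ
    have hτ0 : 0 ≤ τ := deriv_smoothTransition_nonneg _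
    have e1 : hess (cutU k E) e (e x) + ((2 * C * (Pr 1)⁻¹ / k : ℝ) : ℂ) • w e (e x) =
        ((2 / k * (Pr 1)⁻¹ * σ : ℝ) : ℂ) • bet η E e (e x) +
        (((Pr 1)⁻¹ * ((2 / k) ^ 2 * τ * (E x ^ 2)⁻¹) : ℝ) : ℂ) • dd E E e (e x) +
        ((2 / k * (Pr 1)⁻¹ * σ : ℝ) : ℂ) • ((C : ℂ) • w e (e x) - η e (e x)) +
        ((2 / k * (Pr 1)⁻¹ * (1 - σ) * C : ℝ) : ℂ) • w e (e x) := by
      rw [hess_cutU hk hE hx, hess_LP_pos hk hE hx h, ← hσ, ← hτ, bet]
      ext i j
      simp only [Matrix.add_apply, Matrix.sub_apply, Matrix.smul_apply, smul_eq_mul]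
      push_cast
      ring
    rw [e1]
    refine (((smul_psd ?_ (hβ h)).add (smul_psd ?_ (dd_self_posSemidef E e _))).add
      (smul_psd ?_ hηC)).add (smul_psd ?_ hw)
    · positivity
    · positivity
    · positivity
    · have : 0 ≤ 1 - σ := by linarith
      positivity

/-- (C2): `η + i∂∂̄ M_k ≥ - C w` -/
theorem hess_cutM_add_posSemidef {k C : ℝ} (hk : 0 < k) (hC : 0 ≤ C)
    (hE : SmoothFn (n := n) E) (hx : At e x)
    (hw : (w e (e x)).PosSemidef)
    (hηC : (η e (e x) + (C : ℂ) • w e (e x)).PosSemidef)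
    (hβ : 0 < E x → (bet η E e (e x)).PosSemidef) :
    (η e (e x) + hess (cutM k E) e (e x) + (C : ℂ) • w e (e x)).PosSemidef := by
  rcases le_or_gt (E x) 0 with h | h
  · rw [hess_cutM hk hE hx, hess_LP_zero hk hE hx h, smul_zero, add_zero]
    exact hηC
  · set σ := Real.smoothTransition (2 / k * Real.log (E x) + 2) with hσ
    have hσ0 : 0 ≤ σ := Real.smoothTransition.nonneg _
    have hσ1 : σ ≤ 1 := Real.smoothTransition.le_one _
    set τ := deriv Real.smoothTransition (2 / k * Real.log (E x) + 2) with hτ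
    have hτ0 : 0 ≤ τ := deriv_smoothTransition_nonneg _
    have hk0 : (k : ℂ) ≠ 0 := by exact_mod_cast hk.ne'
    have e1 : η e (e x) + hess (cutM k E) e (e x) + (C : ℂ) • w e (e x) =
        ((σ : ℝ) : ℂ) • bet η E e (e x) +
        (((k / 2) * ((2 / k) ^ 2 * τ * (E x ^ 2)⁻¹) : ℝ) : ℂ) • dd E E e (e x) +
        ((1 - σ : ℝ) : ℂ) • (η e (e x) + (C : ℂ) • w e (e x)) +
        ((σ * C : ℝ) : ℂ) • w e (e x) := by
      rw [hess_cutM hk hE hx, hess_LP_pos hk hE hx h, ← hσ, ← hτ, bet]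
      ext i j
      simp only [Matrix.add_apply, Matrix.sub_apply, Matrix.smul_apply, smul_eq_mul]
      push_cast
      field_simp
      ring
    rw [e1]
    refine (((smul_psd hσ0 (hβ h)).add (smul_psd ?_ (dd_self_posSemidef E e _))).add
      (smul_psd ?_ hηC)).add (smul_psd ?_ hw)
    · positivity
    · linarith
    · positivity

/-- (C3): `η + i∂∂̄ M_k = β` where `u_k ≠ 0` -/
theorem hess_cutM_eq {k : ℝ} (hk : 0 < k) (hE : SmoothFn (n := n) E) (hx : At e x)
    (h : cutU k E x ≠ 0) : η e (e x) + hess (cutM k E) e (e x) = bet η E e (e x) := by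
  obtain ⟨h0, h1⟩ := cutU_ne_zero h
  have h2 : 1 < 2 / k * Real.log (E x) + 2 := by linarith
  have hk0 : (k : ℂ) ≠ 0 := by exact_mod_cast hk.ne'
  rw [hess_cutM hk hE hx, hess_LP_pos hk hE hx h0, Real.smoothTransition.one_of_one_le h2.le,
    deriv_smoothTransition_of_one_lt h2, bet]
  ext i j
  simp only [Matrix.add_apply, Matrix.sub_apply, Matrix.smul_apply, smul_eq_mul]
  push_cast
  field_simp
  ring

/-- on `E > 0`, `Lg E` is the complex Hessian of `log E` -/
theorem Lg_eq (hE : SmoothFn (n := n) E) (hx : At e x) (h0 : 0 < E x) :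
    Lg E e (e x) = hess (fun y => Real.log (E y)) e (e x) := by
  have h1 : deriv Real.log (E x) = (E x)⁻¹ := Real.deriv_log _
  have h2 : deriv (deriv Real.log) (E x) = -(E x ^ 2)⁻¹ := by
    rw [Real.deriv_log', deriv_inv]
  rw [hess_comp' (φ := Real.log) (Real.contDiffAt_log.2 h0.ne') hE hx, h1, h2, Lg, e.left_inv hx.2]
  ext i j
  simp only [Matrix.add_apply, Matrix.sub_apply, Matrix.smul_apply, smul_eq_mul]
  push_cast
  ring

end X

end Vale.Agent.P299.H167
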