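import Mathlib

/-!
# A Hilbert space minimax lemma

`exists_dual`: let `C` be a convex cone in `ℝ × H` and `S` a bounded set in a Hilbert space `H`
such that for every `(r, f) ∈ C` the supremum of `r + ⟨u, f⟩` over `u ∈ S` is nonnegative.  Then
one `v` in every closed convex set `T ⊇ S` satisfies `0 ≤ r + ⟨v, f⟩` for all `(r, f) ∈ C`.
-/

set_option autoImplicit false

namespace Vale.Agent.P299.H167

open scoped InnerProductSpace

variable {H : Type*} [NormedAddCommGroup H] [InnerProductSpace ℝ H] [CompleteSpace H]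

theorem exists_dual (C : Set (ℝ × H)) (h0 : (0 : ℝ × H) ∈ C)
    (hadd : ∀ p ∈ C, ∀ q ∈ C, p + q ∈ C) (hsmul : ∀ t : ℝ, 0 ≤ t → ∀ p ∈ C, t • p ∈ C)
    (S : Set H) (M : ℝ) (hM : ∀ u ∈ S, ‖u‖ ≤ M)
    (h : ∀ p ∈ C, ∀ ε : ℝ, 0 < ε → ∃ u ∈ S, -ε ≤ p.1 + ⟪u, p.2⟫_ℝ)
    (T : Set H) (hTcl : IsClosed T) (hTc : Convex ℝ T) (hST : S ⊆ T) :
    ∃ v ∈ T, ∀ p ∈ C, 0 ≤ p.1 + ⟪v, p.2⟫_ℝ := by
  -- the cone `K = C + P`
  let K : PointedCone ℝ (ℝ × H) :=
    { carrier := {p | ∃ c ∈ C, ∀ u ∈ S, 0 ≤ (p - c).1 + ⟪u, (p - c).2⟫_ℝ}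
      zero_mem' := ⟨0, h0, by simp⟩
      smul_mem' := by
        rintro ⟨t, ht⟩ p ⟨c, hc, hp⟩
        refine ⟨t • c, hsmul t ht c hc, fun u hu => ?_⟩
        have := mul_nonneg ht (hp u hu)
        have e : (⟨t, ht⟩ : {c : ℝ // 0 ≤ c}) • p - t • c = t • (p - c) := by
          rw [smul_sub]; rfl
        rw [e]
        simp only [Prod.smul_fst, Prod.smul_snd, smul_eq_mul, inner_smul_right]
        linarith [this, mul_add t (p - c).1 ⟪u, (p - c).2⟫_ℝ]
      add_mem' := by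
        rintro p q ⟨c, hc, hp⟩ ⟨d, hd, hq⟩
        refine ⟨c + d, hadd c hc d hd, fun u hu => ?_⟩
        have h1 := hp u hu
        have h2 := hq u hu
        have e : p + q - (c + d) = (p - c) + (q - d) := by abel
        rw [e]
        simp only [Prod.fst_add, Prod.snd_add, inner_add_right]
        linarith }
  have hKmem : ∀ p : ℝ × H, p ∈ K ↔ ∃ c ∈ C, ∀ u ∈ S, 0 ≤ (p - c).1 + ⟪u, (p - c).2⟫_ℝ :=
    fun p => Iff.rfl
  have hPK : ∀ p : ℝ × H, (∀ u ∈ S, 0 ≤ p.1 + ⟪u, p.2⟫_ℝ) → p ∈ K := by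
    intro p hp
    exact ⟨0, h0, by simpa using hp⟩
  have hCK : ∀ p ∈ C, p ∈ K := by
    intro p hp
    exact ⟨p, hp, by simp⟩
  -- nonnegativity on `ℝ × 0`
  have hnn : ∀ r : ℝ, ((r, 0) : ℝ × H) ∈ K → 0 ≤ r := by
    rintro r ⟨c, hc, hr⟩
    by_contra hlt
    push Not at hlt
    obtain ⟨u, hu, hu'⟩ := h c hc (-r / 2) (by linarith)
    have := hr u hu
    simp only [Prod.fst_sub, Prod.snd_sub, zero_sub, inner_neg_right] at this
    linarith
  let D : Submodule ℝ (ℝ × H) := Submodule.prod ⊤ ⊥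
  let f : (ℝ × H) →ₗ.[ℝ] ℝ := ⟨D, (LinearMap.fst ℝ ℝ H).comp D.subtype⟩
  obtain ⟨g, hg1, hg2⟩ := riesz_extension K f (by
      rintro ⟨⟨r, y⟩, hy⟩ hx
      have hy0 : y = 0 := by simpa [f, D, Submodule.mem_prod] using hy
      subst hy0
      exact hnn r hx) (by
      rintro ⟨r, y⟩
      have hM0 : ∀ u ∈ S, |⟪u, y⟫_ℝ| ≤ |M| * ‖y‖ := fun u hu =>
        (abs_real_inner_le_norm u y).trans
          (mul_le_mul_of_nonneg_right ((hM u hu).trans (le_abs_self M)) (norm_nonneg _))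
      refine ⟨⟨(-r + |M| * ‖y‖, 0), ?_⟩, ?_⟩
      · simp [f, D, Submodule.mem_prod]
      · apply hPK
        intro u hu
        have := (abs_le.mp (hM0 u hu)).1
        simp only [Prod.mk_add_mk, zero_add]
        linarith)
  have hg1' : ∀ r : ℝ, g (r, 0) = r := by
    intro r
    have hr : ((r, 0) : ℝ × H) ∈ f.domain := by simp [f, D, Submodule.mem_prod]
    exact hg1 ⟨(r, 0), hr⟩
  have hgsplit : ∀ (r : ℝ) (y : H), g (r, y) = r + g (0, y) := by
    intro r y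
    have : ((r, y) : ℝ × H) = (r, 0) + (0, y) := by simp
    rw [this, map_add, hg1']
  -- continuity
  have hbd : ∀ y : H, |g (0, y)| ≤ |M| * ‖y‖ := by
    intro y
    have key : ∀ y : H, 0 ≤ |M| * ‖y‖ + g (0, y) := by
      intro y
      have : ((|M| * ‖y‖, y) : ℝ × H) ∈ K := by
        apply hPK
        intro u hu
        have := (abs_le.mp ((abs_real_inner_le_norm u y).trans
          (mul_le_mul_of_nonneg_right ((hM u hu).trans (le_abs_self M)) (norm_nonneg _)))).1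
        simp only
        linarith
      have := hg2 _ this
      rwa [hgsplit] at this
    have k1 := key y
    have k2 := key (-y)
    have e : g ((0 : ℝ), -y) = -g (0, y) := by
      rw [← map_neg]; simp
    rw [norm_neg, e] at k2
    rw [abs_le]
    constructor <;> linarith
  let L : H →ₗ[ℝ] ℝ := g.comp (LinearMap.inr ℝ ℝ H)
  let Lc : H →L[ℝ] ℝ := L.mkContinuous |M| (fun y => by
    simpa [L] using hbd y)
  let v : H := (InnerProductSpace.toDual ℝ H).symm Lc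
  have hv : ∀ y : H, ⟪v, y⟫_ℝ = g (0, y) := by
    intro y
    have := InnerProductSpace.toDual_symm_apply (𝕜 := ℝ) (x := y) (y := Lc)
    rw [this]
    simp [Lc, L]
  have hvK : ∀ p ∈ K, 0 ≤ p.1 + ⟪v, p.2⟫_ℝ := by
    rintro ⟨r, y⟩ hp
    have := hg2 _ hp
    rw [hgsplit] at this
    simpa [hv] using this
  refine ⟨v, ?_, fun p hp => hvK p (hCK p hp)⟩
  by_contra hvT
  obtain ⟨l, a, hl1, hl2⟩ := geometric_hahn_banach_point_closed hTc hTcl hvT
  let w : H := (InnerProductSpace.toDual ℝ H).symm l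
  have hw : ∀ y : H, ⟪w, y⟫_ℝ = l y := fun y =>
    InnerProductSpace.toDual_symm_apply (𝕜 := ℝ) (x := y) (y := l)
  have : ((-a, w) : ℝ × H) ∈ K := by
    apply hPK
    intro u hu
    have h1 := hl2 u (hST hu)
    simp only
    rw [real_inner_comm, hw]
    linarith
  have h2 := hvK _ this
  simp only at h2
  rw [real_inner_comm, hw] at h2
  linarith

end Vale.Agent.P299.H167
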