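import Mathlib

/-!
# A closed convex set in `L²`
-/

set_option autoImplicit false

open scoped Topology ENNReal
open MeasureTheory Set Filter

noncomputable section

namespace Vale.Agent.P299.H167

variable {Ω : Type*} [MeasurableSpace Ω] {μ : Measure Ω} {a : ℝ} {B : ℝ≥0∞}

/-- nonpositive functions with `∫ exp (-a v) ≤ B` -/
def TSet (μ : Measure Ω) (a : ℝ) (B : ℝ≥0∞) : Set (Lp ℝ 2 μ) :=
  {v | (∀ᵐ x ∂μ, v x ≤ 0) ∧ ∫⁻ x, ENNReal.ofReal (Real.exp (-(a * v x))) ∂μ ≤ B}

theorem isClosed_TSet : IsClosed (TSet μ a B) := by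
  refine IsSeqClosed.isClosed fun s v hs hv => ?_
  obtain ⟨ns, -, hns⟩ := (tendstoInMeasure_of_tendsto_Lp hv).exists_seq_tendsto_ae
  refine ⟨?_, ?_⟩
  · have h1 : ∀ᵐ x ∂μ, ∀ i, s i x ≤ 0 := ae_all_iff.2 fun i => (hs i).1
    filter_upwards [hns, h1] with x hx hx1
    exact le_of_tendsto hx (Eventually.of_forall fun i => hx1 _)
  · have hm : ∀ i, AEMeasurable (fun x => ENNReal.ofReal (Real.exp (-(a * s (ns i) x)))) μ := by
      intro i
      have := (Lp.aestronglyMeasurable (s (ns i))).aemeasurable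
      exact (Real.measurable_exp.comp_aemeasurable (this.const_mul a).neg).ennreal_ofReal
    have h2 : ∫⁻ x, ENNReal.ofReal (Real.exp (-(a * v x))) ∂μ =
        ∫⁻ x, liminf (fun i => ENNReal.ofReal (Real.exp (-(a * s (ns i) x)))) atTop ∂μ := by
      refine lintegral_congr_ae ?_
      filter_upwards [hns] with x hx
      refine (Tendsto.liminf_eq ?_).symm
      refine (ENNReal.continuous_ofReal.tendsto _).comp ((Real.continuous_exp.tendsto _).comp ?_)
      exact (hx.const_mul a).neg
    rw [h2]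
    refine (lintegral_liminf_le' hm).trans ?_
    refine liminf_le_of_le (by isBoundedDefault) fun b hb => ?_
    obtain ⟨i, hi⟩ := hb.exists
    exact hi.trans (hs _).2

theorem convex_TSet : Convex ℝ (TSet μ a B) := by
  intro v hv v' hv' s t hs ht hst
  have hc : ∀ᵐ x ∂μ, (s • v + t • v' : Lp ℝ 2 μ) x = s * v x + t * v' x := by
    filter_upwards [Lp.coeFn_add (s • v) (t • v'), Lp.coeFn_smul s v, Lp.coeFn_smul t v']
      with x h1 h2 h3
    rw [h1, Pi.add_apply, h2, h3, Pi.smul_apply, Pi.smul_apply, smul_eq_mul, smul_eq_mul]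
  refine ⟨?_, ?_⟩
  · filter_upwards [hc, hv.1, hv'.1] with x hx h1 h2
    rw [hx]
    nlinarith
  · have h1 : ∫⁻ x, ENNReal.ofReal (Real.exp (-(a * (s • v + t • v' : Lp ℝ 2 μ) x))) ∂μ ≤
        ∫⁻ x, (ENNReal.ofReal s * ENNReal.ofReal (Real.exp (-(a * v x))) +
          ENNReal.ofReal t * ENNReal.ofReal (Real.exp (-(a * v' x)))) ∂μ := by
      refine lintegral_mono_ae ?_
      filter_upwards [hc] with x hx
      rw [hx, ← ENNReal.ofReal_mul hs, ← ENNReal.ofReal_mul ht,
        ← ENNReal.ofReal_add (by positivity) (by positivity)]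
      refine ENNReal.ofReal_le_ofReal ?_
      have := convexOn_exp.2 (mem_univ (-(a * v x))) (mem_univ (-(a * v' x))) hs ht hst
      simp only [smul_eq_mul] at this
      refine le_trans (le_of_eq ?_) this
      congr 1
      ring
    have hm : AEMeasurable (fun x => ENNReal.ofReal s *
        ENNReal.ofReal (Real.exp (-(a * v x)))) μ := by
      have := (Lp.aestronglyMeasurable v).aemeasurable
      exact (Real.measurable_exp.comp_aemeasurable (this.const_mul a).neg).ennreal_ofReal.const_mul _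
    refine h1.trans ?_
    rw [lintegral_add_left' hm, lintegral_const_mul' _ _ ENNReal.ofReal_ne_top,
      lintegral_const_mul' _ _ ENNReal.ofReal_ne_top]
    calc ENNReal.ofReal s * ∫⁻ x, ENNReal.ofReal (Real.exp (-(a * v x))) ∂μ +
          ENNReal.ofReal t * ∫⁻ x, ENNReal.ofReal (Real.exp (-(a * v' x))) ∂μ
        ≤ ENNReal.ofReal s * B + ENNReal.ofReal t * B :=
          add_le_add (mul_le_mul_right hv.2 _) (mul_le_mul_right hv'.2 _)
      _ = B := by
          rw [← add_mul, ← ENNReal.ofReal_add hs ht, hst, ENNReal.ofReal_one, one_mul]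

end Vale.Agent.P299.H167
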