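import Vale.Agent.P299.H167.Ibp
import Vale.Agent.P299.H167.HB
import Vale.Agent.P299.H167.L2
import Vale.Agent.P272.K.AMP.Vol
import Vale.Agent.P272.K.AMP.H470.Glob
import Vale.Agent.P272.K.AMP.LEX.Local

/-!
# The duality argument
-/

set_option autoImplicit false
set_option linter.unusedSectionVars false

open scoped Manifold ContDiff ComplexOrder Matrix Topology InnerProductSpace ENNReal
open Matrix MeasureTheory Set Filter

noncomputable section

namespace Vale.Agent.P299.H167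

open Vale.Agent.P272.K Vale.Agent.P272.K.AMP
open INT (IsDensity intX IsClosedForm)

variable {n : ℕ} {X : Type} [TopologicalSpace X] [ChartedSpace (Cm n) X]
  {w η Θ A g : Chart n X → Cm n → Matrix (Fin n) (Fin n) ℂ} {E u : X → ℝ} {C k Λ : ℝ} {ν : ℕ}

/-- the full setting -/
structure Data (w Θ η : Chart n X → Cm n → Matrix (Fin n) (Fin n) ℂ) (E : X → ℝ) (C Λ : ℝ)
    (ν : ℕ) : Prop where
  S : Setup w η E C
  closed : ∀ e x, At e x → ∀ i k l,
    dz i (fun z => Θ e z k l) (e x) = dz k (fun z => Θ e z i l) (e x)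
  smooth : ∀ e x, At e x → ∀ i j, ContDiffAt ℝ ∞ (fun z => Θ e z i j) (e x)
  form : IsForm Θ
  psd : ∀ e x, At e x → (Θ e (e x)).PosSemidef
  Λ0 : 0 ≤ Λ
  hΛ : ∀ e x, At e x → ((Λ : ℂ) • w e (e x) - Θ e (e x)).PosSemidef
  rank_le : ∀ e x, At e x → (Θ e (e x)).rank ≤ ν
  rank_eq : ∃ e x, At e x ∧ (Θ e (e x)).rank = ν
  ker : ∃ U : Set X, Dense U ∧ ∀ e x, At e x → x ∈ U → 0 < E x → (Θ e (e x)).rank = ν →
    ∀ ξ : Fin n → ℂ, Θ e (e x) *ᵥ ξ = 0 → star ξ ⬝ᵥ (bet η E e (e x) *ᵥ ξ) = 0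

/-- `Θ + δ w` -/
def Ad (w Θ : Chart n X → Cm n → Matrix (Fin n) (Fin n) ℂ) (δ : ℝ) (e : Chart n X) (z : Cm n) :
    Matrix (Fin n) (Fin n) ℂ := Θ e z + (δ : ℂ) • w e z

/-- an inequality between densities holds everywhere if it holds on a dense set -/
theorem density_le_of_dense {D₁ D₂ : Chart n X → Cm n → ℝ} (h₁ : IsDensity D₁)
    (h₂ : IsDensity D₂) {U : Set X} (hU : Dense U)
    (h : ∀ e x, At e x → x ∈ U → D₁ e (e x) ≤ D₂ e (e x)) (e : Chart n X) (x : X)
    (hx : At e x) : D₁ e (e x) ≤ D₂ e (e x) := by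
  by_contra hlt
  push Not at hlt
  have h3 : ∀ᶠ z in 𝓝 (e x), D₂ e z < D₁ e z := (h₂.cont e x hx).eventually_lt (h₁.cont e x hx) hlt
  have h4 : ∀ᶠ y in 𝓝 x, D₂ e (e y) < D₁ e (e y) := (e.continuousAt hx.2).eventually h3
  obtain ⟨y, hyU, hy1, hy2⟩ := hU.inter_nhds_nonempty
    (Filter.inter_mem h4 (e.open_source.mem_nhds hx.2))
  exact absurd (h e y ⟨hx.1, hy2⟩ hyU) (not_le.2 hy1)

variable [IsManifold 𝓘(ℂ, Cm n) ω X]

theorem Setup.mul_trX_chart (S : Setup w η E C) (hk : 0 < k) (hg : IsHermitian g)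
    {e : Chart n X} {x : X} (hx : At e x) :
    cutU k E x * trX g (bet η E) x =
      cutU k E x * ((g e (e x))⁻¹ * bet η E e (e x)).trace.re := by
  rw [S.mul_trX_eq hk]
  by_cases h : cutU k E x = 0
  · rw [h, zero_mul, zero_mul]
  · rw [trX_eq hg (S.isClosedForm_bk hk).form hx, trE, ← hess_cutM_eq (η := η) hk S.hE hx h]
    rfl

namespace Data

variable (D : Data w Θ η E C Λ ν)
include D

theorem hΘ : IsClosedForm Θ := ⟨D.smooth, D.form, D.closed⟩

theorem isKahler_Ad {δ : ℝ} (hδ : 0 < δ) : IsKahler (Ad w Θ δ) :=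
  isKahler_of (D.hΘ.add ((INT.IsKahler.isClosedForm D.S.hw).smul _)) fun e x hx =>
    Matrix.PosDef.posSemidef_add (D.psd e x hx) (by
      have : (δ : ℂ) • w e (e x) = δ • w e (e x) := by ext i j; simp
      rw [this]
      exact (D.S.hw.posDef e x hx).smul hδ)

variable [T2Space X] [CompactSpace X]

/-- the constant `K` -/
theorem exists_const : ∃ K : ℝ, 0 < K ∧ ∀ δ : ℝ, 0 < δ → δ ≤ 1 → ∀ k : ℝ, 0 < k →
    Ms η E (Ad w Θ δ) k ≤ K * intX (fun (e : Chart n X) z => (Ad w Θ δ e z).det.re) := by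
  obtain ⟨e₀, x₀, hx₀, hν⟩ := D.rank_eq
  obtain ⟨U, hU, hker⟩ := D.ker
  have hwH := D.S.hw.toIsHermitian
  obtain ⟨c, hc, hlow⟩ := exists_lower hwH D.form D.smooth D.psd hx₀ hν
  set B : ℝ := IX w (trX w η) + C * n * IX w (fun _ => 1) with hB
  have hB0 : 0 ≤ B := (Ms_nonneg D.S hwH (k := 1)).trans (Ms_le D.S one_pos)
  have hΛ := D.Λ0
  refine ⟨(Λ + 1) ^ n * B / c + 1, by positivity, fun δ hδ hδ1 k hk => ?_⟩
  have hA := (D.isKahler_Ad hδ).toIsHermitian
  have h1 : Ms η E (Ad w Θ δ) k ≤ (Λ + 1) ^ n * δ ^ (n - ν) * Ms η E w k := by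
    rw [Ms, Ms, IX, IX, ← INT.intX_const_mul]
    have d1 := isDensity_IX hA (D.S.cont_mul_trX hk hA)
    have d2 := (isDensity_IX hwH (D.S.cont_mul_trX hk hwH)).const_mul
      ((Λ + 1) ^ n * δ ^ (n - ν))
    refine INT.intX_mono d1 d2 (density_le_of_dense d1 d2 hU fun e x hx hxU => ?_)
    rw [e.left_inv hx.2, D.S.mul_trX_chart hk hA hx, D.S.mul_trX_chart hk hwH hx]
    by_cases h : cutU k E x = 0
    · rw [h]; simp
    · have h0 := (cutU_ne_zero h).1
      have h2 := det_mul_trace_le_of_rank (hwH.posDef e x hx) (D.psd e x hx) hΛ (D.hΛ e x hx)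
        (D.rank_le e x hx) (D.S.hβ e x hx h0) (hker e x hx hxU h0) hδ hδ1
      have h3 := cutU_nonneg (E := E) k x
      calc cutU k E x * ((Ad w Θ δ e (e x))⁻¹ * bet η E e (e x)).trace.re *
            (Ad w Θ δ e (e x)).det.re
          = cutU k E x * (((Ad w Θ δ e (e x))⁻¹ * bet η E e (e x)).trace.re *
            (Ad w Θ δ e (e x)).det.re) := by ring
        _ ≤ cutU k E x * ((Λ + 1) ^ n * δ ^ (n - ν) *
            (((w e (e x))⁻¹ * bet η E e (e x)).trace.re * (w e (e x)).det.re)) :=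
            mul_le_mul_of_nonneg_left h2 h3
        _ = _ := by ring
  have h4 := Ms_le D.S hk
  rw [← hB] at h4
  have h5 := hlow δ hδ.le
  have h6 : intX (fun (e : Chart n X) z => (Ad w Θ δ e z).det.re) =
      intX (fun (e : Chart n X) z => (Θ e z + (δ : ℂ) • w e z).det.re) := rfl
  rw [h6]
  set m := intX (fun (e : Chart n X) z => (Θ e z + (δ : ℂ) • w e z).det.re) with hm
  have hp : 0 < δ ^ (n - ν) := by positivity
  have hm0 : 0 ≤ m := le_trans (by positivity) h5
  calc Ms η E (Ad w Θ δ) k ≤ (Λ + 1) ^ n * δ ^ (n - ν) * Ms η E w k := h1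
    _ ≤ (Λ + 1) ^ n * δ ^ (n - ν) * B := mul_le_mul_of_nonneg_left h4 (by positivity)
    _ = ((Λ + 1) ^ n * B / c) * (c * δ ^ (n - ν)) := by field_simp
    _ ≤ ((Λ + 1) ^ n * B / c) * m := mul_le_mul_of_nonneg_left h5 (by positivity)
    _ ≤ ((Λ + 1) ^ n * B / c + 1) * m := by nlinarith

end Data

/-- the class of potentials -/
def Cls0 (w : Chart n X → Cm n → Matrix (Fin n) (Fin n) ℂ) (C₁ : ℝ) (u : X → ℝ) : Prop :=
  SmoothFn (n := n) u ∧
    (∀ e x, At e x → (addH (fun e z => (C₁ : ℂ) • w e z) u e (e x)).PosSemidef) ∧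
    (∀ x, u x ≤ 0) ∧ ∃ x, u x = 0

namespace Data

variable (D : Data w Θ η E C Λ ν) [T2Space X] [CompactSpace X] [PreconnectedSpace X] [Nonempty X]
include D

/-- the key inequality for finitely many tests -/
theorem exists_key : ∃ K : ℝ, 0 < K ∧ ∀ (ι : Type) (_ : Fintype ι) (G : ι → Tst n X) (ε : ℝ),
    0 < ε → ∃ u : X → ℝ, Cls0 w (Λ + 1) u ∧
      -ε ≤ ∑ i, (K * IX w ((G i).P w Θ) -
        IX w (fun x => cutU (G i).k E x * (G i).P w (bet η E) x)) +
        ∑ i, K * IX w (fun x => u x * (G i).F w x) := by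
  obtain ⟨K, hK, hKδ⟩ := D.exists_const
  refine ⟨K, hK, fun ι _ G ε hε => ?_⟩
  have hwH := D.S.hw.toIsHermitian
  set k : ℝ := ∑ i, (G i).k + 1 with hk
  have hk0 : 0 < k := by
    have : 0 ≤ ∑ i, (G i).k := Finset.sum_nonneg fun i _ => (G i).hk.le
    linarith
  have hki : ∀ i, (G i).k ≤ k := fun i => by
    have := Finset.single_le_sum (f := fun i => (G i).k) (fun i _ => (G i).hk.le)
      (Finset.mem_univ i)
    linarith
  set Q : ℝ := ∑ i, IX w ((G i).P w w) with hQ
  have hQ0 : 0 ≤ Q := Finset.sum_nonneg fun i _ => IX_nonneg hwH fun x =>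
    (G i).P_nonneg hwH fun hx => (hwH.posDef _ x hx).posSemidef
  set δ : ℝ := min 1 (ε / 2 / (K * Q + 1)) with hδ
  have hδ0 : 0 < δ := lt_min one_pos (by positivity)
  have hδ1 : δ ≤ 1 := min_le_left _ _
  have hδ2 : δ * (K * Q) ≤ ε / 2 := by
    have h1 : δ ≤ ε / 2 / (K * Q + 1) := min_le_right _ _
    rw [le_div_iff₀ (by positivity)] at h1
    nlinarith [mul_nonneg hδ0.le (mul_nonneg hK.le hQ0)]
  have hA := D.isKahler_Ad hδ0
  obtain ⟨u, hu, hp, hu0, hux, hmain⟩ := yau_step D.S hA (hKδ δ hδ0 hδ1) hK le_rfl G hk0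
    (half_pos hε)
  refine ⟨u, ⟨hu, fun e x hx => ?_, hu0, hux⟩, ?_⟩
  · have e1 : addH (fun e z => ((Λ + 1 : ℝ) : ℂ) • w e z) u e (e x) =
        ((Λ : ℂ) • w e (e x) - Θ e (e x)) + ((1 - δ : ℝ) : ℂ) • w e (e x) +
          addH (Ad w Θ δ) u e (e x) := by
      unfold addH Ad
      ext i j
      simp only [Matrix.add_apply, Matrix.sub_apply, Matrix.smul_apply, smul_eq_mul]
      push_cast
      ring
    rw [e1]
    exact ((D.hΛ e x hx).add (smul_psd (by linarith) (hwH.posDef e x hx).posSemidef)).add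
      (hp e x hx).posSemidef
  · -- expand the right hand side of `hmain`
    have cP : ∀ (b : Chart n X → Cm n → Matrix (Fin n) (Fin n) ℂ),
        (∀ e x, At e x → ∀ i j, ContDiffAt ℝ ∞ (fun y => b e y i j) (e x)) → ∀ i,
        Continuous ((G i).P w b) := fun b hb i => INT.SmoothFn.continuous ((G i).sm_P hwH hb)
    have cΘ := cP Θ D.smooth
    have cw := cP w hwH.smooth
    have ch := cP (hess u) fun e x hx i j => contDiffAt_hess hu hx i j
    have h1 : ∀ i, IX w ((G i).P w (addH (Ad w Θ δ) u)) =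
        IX w ((G i).P w Θ) + δ * IX w ((G i).P w w) + IX w (fun x => u x * (G i).F w x) := by
      intro i
      have e1 : (G i).P w (addH (Ad w Θ δ) u) = fun x =>
          ((G i).P w Θ x + δ * (G i).P w w x) + (G i).P w (hess u) x := by
        funext x
        have a1 : (G i).P w (addH (Ad w Θ δ) u) x =
            (G i).P w (Ad w Θ δ) x + (G i).P w (hess u) x := (G i).P_add x
        have a2 : (G i).P w (Ad w Θ δ) x =
            (G i).P w Θ x + (G i).P w (fun e z => (δ : ℂ) • w e z) x := (G i).P_add x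
        rw [a1, a2, (G i).P_smul]
      have b1 := IX_add hwH (f := fun x => (G i).P w Θ x + δ * (G i).P w w x)
        (f' := (G i).P w (hess u)) ((cΘ i).add (continuous_const.mul (cw i))) (ch i)
      have b2 := IX_add hwH (f := (G i).P w Θ) (f' := fun x => δ * (G i).P w w x) (cΘ i)
        (continuous_const.mul (cw i))
      have b3 := IX_const_mul (g := w) (f := (G i).P w w) δ
      rw [e1, b1, b2, b3, (G i).IX_P_hess hwH hu]
    have hsA : ∀ e x, At e x → ∀ i j,
        ContDiffAt ℝ ∞ (fun y => addH (Ad w Θ δ) u e y i j) (e x) := fun e x hx i j =>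
      (hA.smooth e x hx i j).add (contDiffAt_hess hu hx i j)
    have h2 := IX_sum hwH (f := fun i => (G i).P w (addH (Ad w Θ δ) u)) Finset.univ
      fun i _ => cP _ hsA i
    have h3 := IX_sum hwH (f := fun i x => cutU k E x * (G i).P w (bet η E) x) Finset.univ
      fun i _ => INT.SmoothFn.continuous (sm_cut_mul_P D.S (G i) hk0)
    rw [h3] at hmain
    have h4 : IX w (fun x => ∑ i, (G i).P w (addH (Ad w Θ δ) u) x) =
        ∑ i, IX w ((G i).P w (addH (Ad w Θ δ) u)) := h2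
    rw [h4] at hmain
    simp only [h1, Finset.sum_add_distrib, ← Finset.mul_sum] at hmain
    have h5 : ∑ i, IX w (fun x => cutU (G i).k E x * (G i).P w (bet η E) x) ≤
        ∑ i, IX w (fun x => cutU k E x * (G i).P w (bet η E) x) :=
      Finset.sum_le_sum fun i _ => IX_cut_mul_P_mono D.S (G i) (G i).hk (hki i)
    rw [Finset.sum_sub_distrib, ← Finset.mul_sum, ← Finset.mul_sum]
    rw [← hQ] at hmain
    nlinarith

end Data

/-- scaling of a test -/
def Tst.smul (T : Tst n X) (t : ℝ) (ht : 0 ≤ t) : Tst n X where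
  e := T.e
  he := T.he
  H := fun z => (t : ℂ) • T.H z
  smooth := fun i j => contDiff_const.mul (T.smooth i j)
  psd := fun z => smul_psd ht (T.psd z)
  K := T.K
  isCompact := T.isCompact
  subset := T.subset
  zero := fun z hz => by rw [T.zero z hz, smul_zero]
  k := T.k
  hk := T.hk

theorem Tst.P_smul_test (T : Tst n X) (t : ℝ) (ht : 0 ≤ t)
    (b : Chart n X → Cm n → Matrix (Fin n) (Fin n) ℂ) (x : X) :
    (T.smul t ht).P w b x = t * T.P w b x := by
  show tp w T.e (trH (fun z => (t : ℂ) • T.H z) (b T.e)) x = t * tp w T.e (trH T.H (b T.e)) x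
  rw [← tp_const_mul]
  congr 1
  funext z
  rw [trH, trH, Matrix.smul_mul, Matrix.trace_smul, smul_eq_mul, Complex.re_ofReal_mul]

theorem Tst.F_smul_test (T : Tst n X) (t : ℝ) (ht : 0 ≤ t) (x : X) :
    (T.smul t ht).F w x = t * T.F w x := by
  show tp w T.e (DH (fun z => (t : ℂ) • T.H z)) x = t * tp w T.e (DH T.H) x
  rw [← tp_const_mul]
  congr 1
  funext z
  have h1 : ∀ i j, dz i (dzb j fun y => ((t : ℂ) • T.H y) j i) z =
      (t : ℂ) * dz i (dzb j fun y => T.H y j i) z := by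
    intro i j
    have h2 : (fun y => ((t : ℂ) • T.H y) j i) = fun y => (t : ℂ) * T.H y j i := rfl
    have h3 : dzb j (fun y => (t : ℂ) * T.H y j i) = fun y => (t : ℂ) * dzb j (fun y => T.H y j i) y :=
      funext fun y => INT.dzb_const_mul _ ((T.smooth j i).differentiable (by simp) y)
    rw [h2, h3, INT.dz_const_mul _
      ((P1.contDiff_dzb (T.smooth j i) j).differentiable (by simp) z)]
  unfold DH
  simp only [h1, ← Finset.mul_sum]
  rw [Complex.re_ofReal_mul]

section measure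

variable [T2Space X] [CompactSpace X] [MeasurableSpace X] [BorelSpace X]

theorem memLp_of_cont (hw : IsHermitian w) {f : X → ℝ} (hf : Continuous f) :
    MemLp f 2 (volX w) := by
  have := isFiniteMeasure_volX hw
  obtain ⟨C, hC⟩ := (isCompact_range hf).isBounded.exists_norm_le
  exact MemLp.of_bound hf.aestronglyMeasurable C (Eventually.of_forall fun x => hC _ ⟨x, rfl⟩)

theorem inner_toLp (hw : IsHermitian w) {u f : X → ℝ} (hu : Continuous u) (hf : Continuous f) :
    ⟪(memLp_of_cont hw hu).toLp u, (memLp_of_cont hw hf).toLp f⟫_ℝ =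
      IX w (fun x => u x * f x) := by
  rw [MeasureTheory.L2.inner_def]
  have h1 : ∫ x, ⟪(memLp_of_cont hw hu).toLp u x, (memLp_of_cont hw hf).toLp f x⟫_ℝ ∂(volX w) =
      ∫ x, u x * f x ∂(volX w) := by
    refine integral_congr_ae ?_
    filter_upwards [(memLp_of_cont hw hu).coeFn_toLp, (memLp_of_cont hw hf).coeFn_toLp]
      with x h1 h2
    rw [h1, h2]
    simp [mul_comm]
  have hc : Continuous (fun x => u x * f x) := hu.mul hf
  rw [h1, integral_volX hw hc]
  rfl

/-- the class `Cls0` is bounded in `L²` and has uniform exponential integrals -/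
theorem Cls0_bounds [PreconnectedSpace X] (hw : IsHermitian w) (C₁ : ℝ) :
    ∃ a : ℝ, 0 < a ∧ ∃ K : ℝ, ∀ u : X → ℝ, ∀ hu : Cls0 w C₁ u,
      (∫⁻ x, ENNReal.ofReal (Real.exp (-(a * u x))) ∂(volX w) ≤ ENNReal.ofReal K) ∧
      ‖(memLp_of_cont hw (INT.SmoothFn.continuous hu.1)).toLp u‖ ≤ K := by
  obtain ⟨a, ha, K, hK⟩ := AMP.expInt (LEX.localExp n) w hw C₁ 0
  refine ⟨a, ha, |K| + 2 / a ^ 2 * |K| + 1, fun u hu => ?_⟩
  have hc := INT.SmoothFn.continuous hu.1
  have hce : Continuous fun x => Real.exp (-(a * u x)) :=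
    Real.continuous_exp.comp (continuous_const.mul hc).neg
  obtain ⟨x₀, hx₀⟩ := hu.2.2.2
  have h1 := hK u hu.1 hu.2.1 hu.2.2.1 ⟨x₀, by rw [hx₀]; simp⟩
  have h2 : ∫ x, Real.exp (-(a * u x)) ∂(volX w) ≤ K := by
    rw [integral_volX hw hce]; exact h1
  have hi := integrable_volX hw hce
  have hsum : 0 ≤ 2 / a ^ 2 * |K| := by positivity
  refine ⟨?_, ?_⟩
  · rw [← ofReal_integral_eq_lintegral_ofReal hi (Eventually.of_forall fun x => (Real.exp_pos _).le)]
    refine ENNReal.ofReal_le_ofReal (h2.trans ?_)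
    have := le_abs_self K
    linarith
  · set v := (memLp_of_cont hw hc).toLp u with hv
    have h3 : ‖v‖ ^ 2 ≤ 2 / a ^ 2 * |K| := by
      rw [← real_inner_self_eq_norm_sq, hv, inner_toLp hw hc hc]
      have h4 : IX w (fun x => u x * u x) ≤ 2 / a ^ 2 * IX w (fun x => Real.exp (-(a * u x))) := by
        have := IX_const_mul (g := w) (f := fun x => Real.exp (-(a * u x))) (2 / a ^ 2)
        rw [← this]
        refine IX_mono hw (hc.mul hc) (continuous_const.mul hce) fun x => ?_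
        have h5 : 0 ≤ -(a * u x) := by
          have := hu.2.2.1 x
          nlinarith
        have h6 := Real.quadratic_le_exp_of_nonneg h5
        rw [div_mul_eq_mul_div, le_div_iff₀ (by positivity)]
        nlinarith
      refine h4.trans (mul_le_mul_of_nonneg_left ?_ (by positivity))
      have h7 : IX w (fun x => Real.exp (-(a * u x))) ≤ K := h1
      exact h7.trans (le_abs_self K)
    have h4 : ‖v‖ ≤ 2 / a ^ 2 * |K| + 1 := by
      by_contra h
      push Not at h
      nlinarith [norm_nonneg v]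
    have := abs_nonneg K
    linarith

variable [PreconnectedSpace X] [Nonempty X]

/-- **the duality theorem** (`L²` form) -/
theorem Data.dual (D : Data w Θ η E C Λ ν) : ∃ K : ℝ, 0 < K ∧ ∃ a : ℝ, 0 < a ∧
    ∃ B : ℝ≥0∞, B ≠ ⊤ ∧ ∃ v ∈ TSet (volX w) a B, ∀ T : Tst n X,
      IX w (fun x => cutU T.k E x * T.P w (bet η E) x) ≤
        K * (IX w (T.P w Θ) + ∫ x, v x * T.F w x ∂(volX w)) := by
  have hwH := D.S.hw.toIsHermitian
  obtain ⟨K, hK, hkey⟩ := D.exists_key
  obtain ⟨a, ha, K', hK'⟩ := Cls0_bounds hwH (Λ + 1)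
  set r : Tst n X → ℝ := fun T => K * IX w (T.P w Θ) -
    IX w (fun x => cutU T.k E x * T.P w (bet η E) x) with hr
  set f : Tst n X → Lp ℝ 2 (volX w) := fun T => K • (memLp_of_cont hwH (T.cont_F hwH)).toLp _
    with hf
  set Cn : Set (ℝ × Lp ℝ 2 (volX w)) := {p | ∃ (ι : Type) (_ : Fintype ι) (G : ι → Tst n X),
    p = (∑ i, r (G i), ∑ i, f (G i))} with hCn
  set Sset : Set (Lp ℝ 2 (volX w)) := {v | ∃ u : X → ℝ, ∃ hu : Cls0 w (Λ + 1) u,
    v = (memLp_of_cont hwH (INT.SmoothFn.continuous hu.1)).toLp u} with hS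
  have hrs : ∀ (T : Tst n X) (t : ℝ) (ht : 0 ≤ t), r (T.smul t ht) = t * r T := by
    intro T t ht
    have h1 : (T.smul t ht).P w Θ = fun x => t * T.P w Θ x := funext (T.P_smul_test t ht Θ)
    have h2 : (fun x => cutU (T.smul t ht).k E x * (T.smul t ht).P w (bet η E) x) =
        fun x => t * (cutU T.k E x * T.P w (bet η E) x) := by
      funext x
      rw [T.P_smul_test t ht]
      show cutU T.k E x * _ = _
      ring
    have h3 := IX_const_mul (g := w) (f := T.P w Θ) t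
    have h4 := IX_const_mul (g := w) (f := fun x => cutU T.k E x * T.P w (bet η E) x) t
    simp only [hr]
    rw [h2, h1, h3, h4]
    ring
  have hfs : ∀ (T : Tst n X) (t : ℝ) (ht : 0 ≤ t), f (T.smul t ht) = t • f T := by
    intro T t ht
    simp only [hf]
    rw [smul_comm t K]
    congr 1
    rw [← MemLp.toLp_const_smul]
    congr 1
    funext x
    exact T.F_smul_test t ht x
  obtain ⟨v, hvT, hv⟩ := exists_dual Cn
    ⟨Empty, inferInstance, fun i => i.elim, Prod.ext (by simp) (by simp)⟩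
    (by
      rintro _ ⟨ι, _, G, rfl⟩ _ ⟨ι', _, G', rfl⟩
      refine ⟨ι ⊕ ι', inferInstance, Sum.elim G G', ?_⟩
      rw [Fintype.sum_sum_type, Fintype.sum_sum_type]
      simp)
    (by
      rintro t ht _ ⟨ι, _, G, rfl⟩
      refine ⟨ι, inferInstance, fun i => (G i).smul t ht, ?_⟩
      simp only [hrs, hfs, ← Finset.mul_sum, ← Finset.smul_sum]
      rfl)
    Sset K'
    (by
      rintro _ ⟨u, hu, rfl⟩
      exact (hK' u hu).2)
    (by
      rintro _ ⟨ι, _, G, rfl⟩ ε hε
      obtain ⟨u, hu, hle⟩ := hkey ι inferInstance G ε hε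
      refine ⟨_, ⟨u, hu, rfl⟩, ?_⟩
      simp only
      rw [inner_sum]
      refine hle.trans (le_of_eq ?_)
      congr 1
      refine Finset.sum_congr rfl fun i _ => ?_
      simp only [hf]
      rw [inner_smul_right, inner_toLp hwH (INT.SmoothFn.continuous hu.1) ((G i).cont_F hwH)])
    (TSet (volX w) a (ENNReal.ofReal K')) isClosed_TSet convex_TSet
    (by
      rintro _ ⟨u, hu, rfl⟩
      have hcoe := (memLp_of_cont hwH (INT.SmoothFn.continuous hu.1)).coeFn_toLp
      refine ⟨?_, ?_⟩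
      · filter_upwards [hcoe] with x hx
        rw [hx]; exact hu.2.2.1 x
      · refine le_trans (le_of_eq (lintegral_congr_ae ?_)) (hK' u hu).1
        filter_upwards [hcoe] with x hx
        rw [hx])
  refine ⟨K, hK, a, ha, ENNReal.ofReal K', ENNReal.ofReal_ne_top, v, hvT, fun T => ?_⟩
  have h1 := hv (r T, f T) ⟨Unit, inferInstance, fun _ => T, by simp⟩
  simp only [hr, hf] at h1
  rw [inner_smul_right, MeasureTheory.L2.inner_def] at h1
  have h2 : ∫ x, ⟪v x, (memLp_of_cont hwH (T.cont_F hwH)).toLp _ x⟫_ℝ ∂(volX w) =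
      ∫ x, v x * T.F w x ∂(volX w) := by
    refine integral_congr_ae ?_
    filter_upwards [(memLp_of_cont hwH (T.cont_F hwH)).coeFn_toLp] with x hx
    rw [hx]
    simp [mul_comm]
  rw [h2] at h1
  linarith

end measure

end Vale.Agent.P299.H167
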