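import Vale.Agent.P299.H167.YauStep
import Vale.Agent.P272.K.P1.WeakForm

/-!
# Integration by parts against a test
-/

set_option autoImplicit false
set_option linter.unusedSectionVars false

open scoped Manifold ContDiff ComplexOrder Matrix Topology
open Matrix MeasureTheory Set Filter

noncomputable section

namespace Vale.Agent.P299.H167

open Vale.Agent.P272.K Vale.Agent.P272.K.AMP
open INT (IsDensity intX IsClosedForm)

variable {n : ℕ}

/-- `Σ ∂_i ∂̄_j H_{ji}` -/
def DH (H : Cm n → Matrix (Fin n) (Fin n) ℂ) (z : Cm n) : ℝ :=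
  (∑ i, ∑ j, dz i (dzb j fun y => H y j i) z).re

theorem contDiff_DH {H : Cm n → Matrix (Fin n) (Fin n) ℂ}
    (hs : ∀ i j, ContDiff ℝ ∞ fun z => H z i j) : ContDiff ℝ ∞ (DH H) := by
  have h1 : ContDiff ℝ ∞ (fun z => ∑ i, ∑ j, dz i (dzb j fun y => H y j i) z) :=
    ContDiff.sum fun i _ => ContDiff.sum fun j _ => P1.contDiff_dz (P1.contDiff_dzb (hs j i) j) i
  exact Complex.reCLM.contDiff.comp h1

theorem DH_zero {H : Cm n → Matrix (Fin n) (Fin n) ℂ} {z : Cm n} (hz : H =ᶠ[𝓝 z] fun _ => 0) :
    DH H z = 0 := by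
  have h1 : ∀ i j, dz i (dzb j fun y => H y j i) z = 0 := by
    intro i j
    have h2 : (fun y => H y j i) =ᶠ[𝓝 z] fun _ => 0 := by
      filter_upwards [hz] with y hy
      rw [hy]; rfl
    have h3 : dzb j (fun y => H y j i) =ᶠ[𝓝 z] fun _ => 0 := by
      have h4 := INT.dzb_congr' (i := j) h2
      refine h4.trans (Eventually.of_forall fun y => ?_)
      simp
    rw [INT.dz_congr h3, INT.dz_const]
  simp [DH, h1]

variable {X : Type} [TopologicalSpace X] [ChartedSpace (Cm n) X]
  {w b : Chart n X → Cm n → Matrix (Fin n) (Fin n) ℂ} {u : X → ℝ}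

namespace Tst

variable (T : Tst n X)

lemma eventually_zero {z : Cm n} (hz : z ∉ T.K) : T.H =ᶠ[𝓝 z] fun _ => 0 := by
  filter_upwards [T.isCompact.isClosed.isOpen_compl.mem_nhds hz] with y hy
  exact T.zero y hy

lemma DH_zero' {z : Cm n} (hz : z ∉ T.K) : DH T.H z = 0 := DH_zero (T.eventually_zero hz)

lemma tsupport_entry (i j : Fin n) : tsupport (fun z => T.H z i j) ⊆ T.K := by
  refine closure_minimal (fun z hz => ?_) T.isCompact.isClosed
  by_contra h
  apply hz
  show T.H z i j = 0
  rw [T.zero z h]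
  rfl

lemma hasCompactSupport_entry (i j : Fin n) : HasCompactSupport (fun z => T.H z i j) :=
  T.isCompact.of_isClosed_subset (isClosed_tsupport _) (T.tsupport_entry i j)

/-- `∫ tr (H i∂∂̄u) = ∫ u D_H` -/
theorem int_trH_hess (hu : SmoothFn (n := n) u) :
    ∫ z in T.e.target, trH T.H (hess u T.e) z = ∫ z in T.e.target, u (T.e.symm z) * DH T.H z := by
  have h1 : ∀ z, z ∉ T.e.target → trH T.H (hess u T.e) z = 0 := fun z hz => by
    simp [trH, T.zero z fun h => hz (T.subset h)]
  have h2 : ∀ z, z ∉ T.e.target → u (T.e.symm z) * DH T.H z = 0 := fun z hz => by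
    rw [T.DH_zero' fun h => hz (T.subset h), mul_zero]
  rw [setIntegral_eq_integral_of_forall_compl_eq_zero h1,
    setIntegral_eq_integral_of_forall_compl_eq_zero h2]
  set F : Cm n → ℂ := fun z => ((u (T.e.symm z) : ℝ) : ℂ) with hF
  have hFs : ∀ z ∈ T.e.target, ContDiffAt ℝ ∞ F z := by
    intro z hz
    have := hu T.e (T.e.symm z) ⟨T.he, T.e.map_target hz⟩
    rw [T.e.right_inv hz] at this
    exact C2.contDiffAt_ofReal this
  have hsub : ∀ i j, tsupport (fun z => T.H z i j) ⊆ T.e.target := fun i j =>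
    (T.tsupport_entry i j).trans T.subset
  have hi1 : ∀ i j, Integrable (fun z => T.H z j i * dz i (dzb j F) z) := fun i j =>
    P1.integrable_mul_cut (T.smooth j i) (T.hasCompactSupport_entry j i) (hsub j i)
      fun z hz => INT.smooth_dz (INT.smooth_dzb (hFs z hz))
  have hi2 : ∀ i j, Integrable (fun z => dz i (dzb j fun y => T.H y j i) z * F z) := fun i j =>
    P1.integrable_mul_cut (P1.contDiff_dz (P1.contDiff_dzb (T.smooth j i) j) i)
      ((T.hasCompactSupport_entry j i).mono' (subset_closure.trans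
        ((P1.tsupport_dz i).trans (P1.tsupport_dzb j))))
      (((P1.tsupport_dz i).trans (P1.tsupport_dzb j)).trans (hsub j i)) hFs
  have e1 : ∀ z, trH T.H (hess u T.e) z = (∑ i, ∑ j, T.H z j i * dz i (dzb j F) z).re := by
    intro z
    rw [trH, Matrix.trace, Finset.sum_comm]
    congr 1
  have e2 : ∀ z, u (T.e.symm z) * DH T.H z =
      (∑ i, ∑ j, dz i (dzb j fun y => T.H y j i) z * F z).re := by
    intro z
    simp only [← Finset.sum_mul]
    rw [hF]
    simp only
    rw [Complex.re_mul_ofReal, mul_comm]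
    rfl
  simp only [e1, e2]
  have hI1 : Integrable (fun z => ∑ i, ∑ j, T.H z j i * dz i (dzb j F) z) :=
    integrable_finsetSum _ fun i _ => integrable_finsetSum _ fun j _ => hi1 i j
  have hI2 : Integrable (fun z => ∑ i, ∑ j, dz i (dzb j fun y => T.H y j i) z * F z) :=
    integrable_finsetSum _ fun i _ => integrable_finsetSum _ fun j _ => hi2 i j
  have r1 := integral_re hI1
  have r2 := integral_re hI2
  simp only [RCLike.re_to_complex] at r1 r2
  rw [r1, r2]
  congr 1
  rw [integral_finsetSum _ fun i _ => integrable_finsetSum _ fun j _ => hi1 i j,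
    integral_finsetSum _ fun i _ => integrable_finsetSum _ fun j _ => hi2 i j]
  refine Finset.sum_congr rfl fun i _ => ?_
  rw [integral_finsetSum _ fun j _ => hi1 i j, integral_finsetSum _ fun j _ => hi2 i j]
  exact Finset.sum_congr rfl fun j _ =>
    P1.ibp2 (T.smooth j i) (T.hasCompactSupport_entry j i) (hsub j i) hFs i j

/-- the function `D_H / det w` on `X` -/
def F (w : Chart n X → Cm n → Matrix (Fin n) (Fin n) ℂ) (x : X) : ℝ := tp w T.e (DH T.H) x

variable [IsManifold 𝓘(ℂ, Cm n) ω X] [T2Space X] [CompactSpace X]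

theorem cont_F (hw : IsHermitian w) : Continuous (T.F w) :=
  cont_tp hw T.he (fun z _ => (contDiff_DH T.smooth).contDiffAt) T.isCompact T.subset
    fun _ _ hz => T.DH_zero' hz

theorem IX_P_hess (hw : IsHermitian w) (hu : SmoothFn (n := n) u) :
    IX w (T.P w (hess u)) = IX w (fun x => u x * T.F w x) := by
  have h1 := T.IX_mul_P hw (b := hess u) (fun e x hx i j => contDiffAt_hess hu hx i j)
    (h := fun _ => 1) continuous_const
  have h2 := IX_mul_tp hw T.he (φ := DH T.H) (fun z _ => (contDiff_DH T.smooth).contDiffAt)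
    T.isCompact T.subset (fun _ _ hz => T.DH_zero' hz) (INT.SmoothFn.continuous hu)
  simp only [one_mul] at h1
  have h3 : IX w (fun x => u x * T.F w x) = ∫ z in T.e.target, u (T.e.symm z) * DH T.H z := h2
  rw [h1, h3, T.int_trH_hess hu]

end Tst

end Vale.Agent.P299.H167
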