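import Vale.Agent.P299.H167.ElMir

/-!
# Masses of `β = η + i∂∂̄ log E` on `E > 0`
-/

set_option autoImplicit false
set_option linter.unusedSectionVars false

open scoped Manifold ContDiff ComplexOrder Matrix Topology
open Matrix MeasureTheory Set Filter

noncomputable section

namespace Vale.Agent.P299.H167

open Vale.Agent.P272.K Vale.Agent.P272.K.AMP
open INT (IsDensity intX IsClosedForm IsPolyN lag)

variable {n : ℕ} {X : Type*} [TopologicalSpace X] [ChartedSpace (Cm n) X]
  {w η A g : Chart n X → Cm n → Matrix (Fin n) (Fin n) ℂ} {E u : X → ℝ} {C k : ℝ}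

/-- the setting -/
structure Setup (w η : Chart n X → Cm n → Matrix (Fin n) (Fin n) ℂ) (E : X → ℝ) (C : ℝ) :
    Prop where
  hw : IsKahler w
  closed : ∀ e x, At e x → ∀ i k l,
    dz i (fun z => η e z k l) (e x) = dz k (fun z => η e z i l) (e x)
  smooth : ∀ e x, At e x → ∀ i j, ContDiffAt ℝ ∞ (fun z => η e z i j) (e x)
  form : IsForm η
  hE : SmoothFn (n := n) E
  E1 : ∀ x, E x ≤ 1
  hC : 0 ≤ C
  hη1 : ∀ e x, At e x → ((C : ℂ) • w e (e x) - η e (e x)).PosSemidef
  hη2 : ∀ e x, At e x → (η e (e x) + (C : ℂ) • w e (e x)).PosSemidef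
  hβ : ∀ e x, At e x → 0 < E x → (bet η E e (e x)).PosSemidef

variable [IsManifold 𝓘(ℂ, Cm n) ω X]

namespace Setup

variable (S : Setup w η E C)
include S

theorem hη : IsClosedForm η := ⟨S.smooth, S.form, S.closed⟩

/-- the smooth form `β_k = η + i∂∂̄ M_k` -/
theorem isClosedForm_bk (hk : 0 < k) : IsClosedForm (addH η (cutM k E)) :=
  S.hη.add (INT.isClosedForm_cHess (sm_cutM hk S.hE))

theorem bk_add_psd (hk : 0 < k) : ∀ e x, At e x →
    (addH η (cutM k E) e (e x) + (C : ℂ) • w e (e x)).PosSemidef := fun e x hx =>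
  hess_cutM_add_posSemidef hk S.hC S.hE hx (S.hw.posDef e x hx).posSemidef (S.hη2 e x hx)
    (S.hβ e x hx)

theorem mul_trX_eq (hk : 0 < k) (x : X) :
    cutU k E x * trX g (bet η E) x = cutU k E x * trX g (addH η (cutM k E)) x := by
  by_cases h : cutU k E x = 0
  · rw [h, zero_mul, zero_mul]
  · have h1 := hess_cutM_eq (η := η) hk S.hE (at_chartAt (n := n) x) h
    unfold trX atX trE
    rw [← h1]
    rfl

theorem trX_bet_nonneg (hg : IsHermitian g) {x : X} (h : 0 < E x) : 0 ≤ trX g (bet η E) x := by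
  have hx := at_chartAt (n := n) x
  exact (Complex.le_def.1 (C2.trace_mul_nonneg (hg.posDef _ x hx).inv.posSemidef
    (S.hβ _ x hx h))).1

theorem mul_trX_nonneg (hg : IsHermitian g) (x : X) : 0 ≤ cutU k E x * trX g (bet η E) x := by
  by_cases h : cutU k E x = 0
  · rw [h, zero_mul]
  · exact mul_nonneg (cutU_nonneg k x) (S.trX_bet_nonneg hg (cutU_ne_zero h).1)

theorem sm_trX_bk (hk : 0 < k) (hg : IsHermitian g) :
    SmoothFn (n := n) (trX g (addH η (cutM k E))) :=
  smoothFn_trX hg (S.isClosedForm_bk hk).form (S.isClosedForm_bk hk).smooth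

theorem sm_mul_trX (hk : 0 < k) (hg : IsHermitian g) :
    SmoothFn (n := n) (fun x => cutU k E x * trX g (bet η E) x) := by
  have h : (fun x => cutU k E x * trX g (bet η E) x) =
      fun x => cutU k E x * trX g (addH η (cutM k E)) x := funext (S.mul_trX_eq hk)
  rw [h]
  exact sm_mul (sm_cutU hk S.hE) (S.sm_trX_bk hk hg)

theorem cont_mul_trX (hk : 0 < k) (hg : IsHermitian g) :
    Continuous (fun x => cutU k E x * trX g (bet η E) x) :=
  INT.SmoothFn.continuous (S.sm_mul_trX hk hg)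

end Setup

section

variable [T2Space X] [CompactSpace X]

/-- the mass `∫ u_k tr_g β dv_g` -/
def Ms (η : Chart n X → Cm n → Matrix (Fin n) (Fin n) ℂ) (E : X → ℝ)
    (g : Chart n X → Cm n → Matrix (Fin n) (Fin n) ℂ) (k : ℝ) : ℝ :=
  IX g (fun x => cutU k E x * trX g (bet η E) x)

variable (S : Setup w η E C)
include S

theorem Ms_eq (hk : 0 < k) :
    Ms η E g k = IX g (fun x => cutU k E x * trX g (addH η (cutM k E)) x) :=
  IX_congr (S.mul_trX_eq hk)

theorem Ms_nonneg (hg : IsHermitian g) : 0 ≤ Ms η E g k :=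
  IX_nonneg hg (S.mul_trX_nonneg hg)

theorem Ms_mono (hg : IsHermitian g) {K : ℝ} (hk : 0 < k) (hK : k ≤ K) :
    Ms η E g k ≤ Ms η E g K := by
  refine IX_mono hg (S.cont_mul_trX hk hg) (S.cont_mul_trX (hk.trans_le hK) hg) fun x => ?_
  by_cases h : cutU k E x = 0
  · rw [h, zero_mul]; exact S.mul_trX_nonneg hg x
  · exact mul_le_mul_of_nonneg_right (cutU_mono hk hK (S.E1 x))
      (S.trX_bet_nonneg hg (cutU_ne_zero h).1)

/-- the mass bound -/
theorem Ms_le (hk : 0 < k) :
    Ms η E w k ≤ IX w (trX w η) + C * n * IX w (fun _ => 1) := by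
  have hwH := S.hw.toIsHermitian
  have c0 : Continuous (trX w η) := INT.SmoothFn.continuous (smoothFn_trX hwH S.form S.smooth)
  have c1 : Continuous (trX w (addH η (cutM k E))) :=
    INT.SmoothFn.continuous (S.sm_trX_bk hk hwH)
  have cL : Continuous (lapX w (cutM k E)) :=
    INT.SmoothFn.continuous (smoothFn_lapX hwH (sm_cutM hk S.hE))
  have h1 : ∀ x, cutU k E x * trX w (bet η E) x ≤ (trX w η x + lapX w (cutM k E) x) + C * n := by
    intro x
    rw [S.mul_trX_eq hk]
    have h2 : trX w (addH η (cutM k E)) x = trX w η x + lapX w (cutM k E) x := trX_add x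
    have h3 : 0 ≤ trX w (addH η (cutM k E)) x + C * n := by
      have h4 := trX_nonneg (b := fun e z => addH η (cutM k E) e z + (C : ℂ) • w e z) hwH
        (S.bk_add_psd hk) x
      rw [trX_add, trX_smul, trX_self hwH] at h4
      exact h4
    have h5 : 0 ≤ C * n := mul_nonneg S.hC (Nat.cast_nonneg _)
    rw [h2] at h3 ⊢
    have h6 := cutU_nonneg (E := E) k x
    have h7 := cutU_le_one (x := x) hk (S.E1 x)
    nlinarith
  refine (IX_mono hwH (f' := fun x => trX w η x + lapX w (cutM k E) x + C * n)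
    (S.cont_mul_trX hk hwH) ((c0.add cL).add continuous_const) h1).trans (le_of_eq ?_)
  have a1 := IX_add hwH (f := fun x => trX w η x + lapX w (cutM k E) x) (f' := fun _ => C * n)
    (c0.add cL) continuous_const
  have a2 := IX_add hwH (f := trX w η) (f' := lapX w (cutM k E)) c0 cL
  have a3 := IX_const_mul (g := w) (f := fun _ : X => (1 : ℝ)) (C * n)
  simp only [mul_one] at a3
  rw [a1, a2, IX_lapX S.hw (sm_cutM hk S.hE), a3, add_zero]

/-- the mass of `β` with respect to `A + i∂∂̄u` and `A` -/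
theorem exists_Ms_sub_le (hA : IsKahler A) (hu : SmoothFn (n := n) u)
    (hp : ∀ e x, At e x → (addH A u e (e x)).PosDef) :
    ∃ K : ℝ, ∀ k : ℝ, 0 < k → |Ms η E (addH A u) k - Ms η E A k| ≤ K / k := by
  have hwH := S.hw.toIsHermitian
  have hAu : IsKahler (addH A u) :=
    isKahler_of ((INT.IsKahler.isClosedForm hA).add (INT.isClosedForm_cHess hu)) hp
  obtain ⟨C1, hC1, h1⟩ := exists_comparison hA.toIsHermitian hwH
  obtain ⟨C2, hC2, h2⟩ := exists_comparison hAu.toIsHermitian hwH
  set m : ℝ := min C1⁻¹ C2⁻¹ with hm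
  have hm0 : 0 < m := lt_min (inv_pos.2 hC1) (inv_pos.2 hC2)
  have hlow : ∀ {D : ℝ} {M N : Matrix (Fin n) (Fin n) ℂ}, 0 < D → m ≤ D⁻¹ →
      ((D : ℂ) • M - N).PosSemidef → N.PosSemidef → (M - (m : ℂ) • N).PosSemidef := by
    intro D M N hD hmD h hN
    have hD0 : (D : ℂ) ≠ 0 := by exact_mod_cast hD.ne'
    have e1 : M - (m : ℂ) • N = ((D⁻¹ : ℝ) : ℂ) • ((D : ℂ) • M - N) +
        ((D⁻¹ - m : ℝ) : ℂ) • N := by
      rw [smul_sub, smul_smul]
      push_cast
      rw [inv_mul_cancel₀ hD0, one_smul, sub_smul]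
      abel
    rw [e1]
    exact (smul_psd (inv_pos.2 hD).le h).add (smul_psd (by linarith) hN)
  have hA1 : ∀ e x, At e x → (A e (e x) - (m : ℂ) • w e (e x)).PosSemidef := fun e x hx =>
    hlow hC1 (min_le_left _ _) (h1 e x hx) (hwH.posDef e x hx).posSemidef
  have hA2 : ∀ e x, At e x → (addH A u e (e x) - (m : ℂ) • w e (e x)).PosSemidef := fun e x hx =>
    hlow hC2 (min_le_right _ _) (h2 e x hx) (hwH.posDef e x hx).posSemidef
  have hC := S.hC
  set κ : ℝ := m / ((n + 1) * (C + 1)) with hκ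
  have hκ0 : 0 < κ := by positivity
  have hκm : ∀ j : Fin (n + 1), (j : ℝ) * κ * C < m := by
    intro j
    have hj : (j : ℝ) ≤ n := by exact_mod_cast Nat.lt_succ_iff.1 j.2
    have e1 : (j : ℝ) * κ * C = m * (((j : ℝ) / (n + 1)) * (C / (C + 1))) := by
      rw [hκ]; field_simp
    rw [e1]
    have h3 : (j : ℝ) / (n + 1) < 1 := by rw [div_lt_one (by positivity)]; linarith
    have h4 : C / (C + 1) ≤ 1 := by rw [div_le_one (by positivity)]; linarith
    have h5 : (j : ℝ) / (n + 1) * (C / (C + 1)) < 1 := by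
      have : (j : ℝ) / (n + 1) * (C / (C + 1)) ≤ (j : ℝ) / (n + 1) * 1 :=
        mul_le_mul_of_nonneg_left h4 (by positivity)
      linarith
    nlinarith
  -- positivity of the forms `M + jκ β_k`
  have hpos : ∀ {M N B : Matrix (Fin n) (Fin n) ℂ} (j : Fin (n + 1)), N.PosDef →
      (M - (m : ℂ) • N).PosSemidef → (B + (C : ℂ) • N).PosSemidef →
      (M + (((j : ℝ) * κ : ℝ) : ℂ) • B).PosDef := by
    intro M N B j hN hM hB
    have e1 : M + (((j : ℝ) * κ : ℝ) : ℂ) • B = (M - (m : ℂ) • N) +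
        (((j : ℝ) * κ : ℝ) : ℂ) • (B + (C : ℂ) • N) + (m - (j : ℝ) * κ * C) • N := by
      ext i l
      simp only [Matrix.add_apply, Matrix.sub_apply, Matrix.smul_apply, smul_eq_mul,
        Complex.real_smul]
      push_cast
      ring
    rw [e1]
    exact Matrix.PosDef.posSemidef_add (hM.add (smul_psd (by positivity) hB))
      (hN.smul (by linarith [hκm j]))
  obtain ⟨M, hM⟩ := (isCompact_range (INT.SmoothFn.continuous hu)).isBounded.exists_norm_le
  have hM' : ∀ x, |u x| ≤ |M| := fun x => (hM _ ⟨x, rfl⟩).trans (le_abs_self M)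
  set V : Fin (n + 1) → ℝ := fun j => intX (fun (e : Chart n X) z =>
    (A e z + (((j : ℝ) * κ : ℝ) : ℂ) • η e z + w e z).det.re) with hV
  refine ⟨κ⁻¹ * ∑ j : Fin (n + 1), |deriv (lag n j) 0| * (2 * |M| * (2 * C * (Pr 1)⁻¹) * V j),
    fun k hk => ?_⟩
  have hbk := S.isClosedForm_bk hk
  have hc1 : ∀ e x, At e x → (hess (cutU k E) e (e x) +
      ((2 * C * (Pr 1)⁻¹ / k : ℝ) : ℂ) • w e (e x)).PosSemidef := fun e x hx =>
    hess_cutU_add_posSemidef hk hC S.hE hx (hwH.posDef e x hx).posSemidef (S.hη1 e x hx)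
      (S.hβ e x hx)
  have hP := Pr_one_pos
  -- each node
  have hnode : ∀ j : Fin (n + 1),
      |intX (fun (e : Chart n X) z => cutU k E (e.symm z) *
          (addH A u e z + (((j : ℝ) * κ : ℝ) : ℂ) • addH η (cutM k E) e z).det.re) -
        intX (fun (e : Chart n X) z => cutU k E (e.symm z) *
          (A e z + (((j : ℝ) * κ : ℝ) : ℂ) • addH η (cutM k E) e z).det.re)| ≤
      2 * |M| * (2 * C * (Pr 1)⁻¹ / k) * V j := by
    intro j
    have hG : IsClosedForm (fun (e : Chart n X) z =>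
        A e z + (((j : ℝ) * κ : ℝ) : ℂ) • addH η (cutM k E) e z) :=
      (INT.IsKahler.isClosedForm hA).add (hbk.smul _)
    have h3 := abs_sub_le hG S.hw (sm_cutU hk S.hE) hu (k := 2 * C * (Pr 1)⁻¹ / k) (by positivity)
      hM' (abs_nonneg _) hc1
      (fun e x hx => hpos j (hwH.posDef e x hx) (hA1 e x hx) (S.bk_add_psd hk e x hx))
      (fun e x hx => by
        have := hpos j (hwH.posDef e x hx) (hA2 e x hx) (S.bk_add_psd hk e x hx)
        have e1 : A e (e x) + (((j : ℝ) * κ : ℝ) : ℂ) • addH η (cutM k E) e (e x) +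
          hess u e (e x) = addH A u e (e x) +
            (((j : ℝ) * κ : ℝ) : ℂ) • addH η (cutM k E) e (e x) := by
          show _ = A e (e x) + hess u e (e x) + _
          abel
        rw [e1]
        exact this)
    have e2 : intX (fun (e : Chart n X) z => cutU k E (e.symm z) *
          (addH A u e z + (((j : ℝ) * κ : ℝ) : ℂ) • addH η (cutM k E) e z).det.re) =
        intX (fun (e : Chart n X) z => cutU k E (e.symm z) *
          (A e z + (((j : ℝ) * κ : ℝ) : ℂ) • addH η (cutM k E) e z + hess u e z).det.re) := by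
      refine INT.intX_congr fun e x _ => ?_
      have e1 : A e (e x) + (((j : ℝ) * κ : ℝ) : ℂ) • addH η (cutM k E) e (e x) +
          hess u e (e x) = addH A u e (e x) +
            (((j : ℝ) * κ : ℝ) : ℂ) • addH η (cutM k E) e (e x) := by
        show _ = A e (e x) + hess u e (e x) + _
        abel
      rw [e1]
    have e3 : intX (fun (e : Chart n X) z =>
        (A e z + (((j : ℝ) * κ : ℝ) : ℂ) • addH η (cutM k E) e z + w e z).det.re) = V j := by
      have hcl : IsClosedForm (fun (e : Chart n X) z =>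
          A e z + (((j : ℝ) * κ : ℝ) : ℂ) • η e z + w e z) :=
        ((INT.IsKahler.isClosedForm hA).add (S.hη.smul _)).add (INT.IsKahler.isClosedForm S.hw)
      rw [hV]
      simp only
      rw [← INT.intX_det_add_cHess hcl (sm_const_mul ((j : ℝ) * κ) (sm_cutM hk S.hE))]
      refine INT.intX_congr fun e x hx => ?_
      have h4 : cHess (fun y => (j : ℝ) * κ * cutM k E (e.symm y)) (e x) =
          (((j : ℝ) * κ : ℝ) : ℂ) • hess (cutM k E) e (e x) :=
        hess_smul_fn ((j : ℝ) * κ) (sm_cutM hk S.hE) hx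
      rw [h4]
      have e5 : addH η (cutM k E) e (e x) = η e (e x) + hess (cutM k E) e (e x) := rfl
      rw [e5, smul_add]
      congr 2
      abel
    rw [e2]
    rw [e3] at h3
    exact h3
  have x1 := extract (a := addH A u) (b := addH η (cutM k E)) hAu.toIsHermitian hbk.form
    hbk.smooth (INT.SmoothFn.continuous (sm_cutU hk S.hE)) κ
  have x2 := extract (a := A) (b := addH η (cutM k E)) hA.toIsHermitian hbk.form
    hbk.smooth (INT.SmoothFn.continuous (sm_cutU hk S.hE)) κ
  rw [← Ms_eq S hk] at x1 x2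
  have x3 : κ * |Ms η E (addH A u) k - Ms η E A k| ≤
      (∑ j : Fin (n + 1), |deriv (lag n j) 0| * (2 * |M| * (2 * C * (Pr 1)⁻¹) * V j)) / k := by
    have x4 : κ * |Ms η E (addH A u) k - Ms η E A k| =
        |κ * (Ms η E (addH A u) k - Ms η E A k)| := by rw [abs_mul, abs_of_pos hκ0]
    rw [x4, mul_sub, x1, x2, ← Finset.sum_sub_distrib,
      Finset.sum_div]
    refine (Finset.abs_sum_le_sum_abs _ _).trans (Finset.sum_le_sum fun j _ => ?_)
    rw [← mul_sub, abs_mul, mul_div_assoc]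
    refine mul_le_mul_of_nonneg_left ((hnode j).trans (le_of_eq ?_)) (abs_nonneg _)
    ring
  calc |Ms η E (addH A u) k - Ms η E A k|
      = κ⁻¹ * (κ * |Ms η E (addH A u) k - Ms η E A k|) := by
        rw [← mul_assoc, inv_mul_cancel₀ hκ0.ne', one_mul]
    _ ≤ κ⁻¹ * ((∑ j : Fin (n + 1), |deriv (lag n j) 0| *
          (2 * |M| * (2 * C * (Pr 1)⁻¹) * V j)) / k) :=
        mul_le_mul_of_nonneg_left x3 (inv_pos.2 hκ0).le
    _ = _ := by ring

/-- **the degeneration inequality** -/
theorem Ms_addH_le (hA : IsKahler A) (hu : SmoothFn (n := n) u)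
    (hp : ∀ e x, At e x → (addH A u e (e x)).PosDef) {R : ℝ}
    (hR : ∀ k : ℝ, 0 < k → Ms η E A k ≤ R) (hk : 0 < k) : Ms η E (addH A u) k ≤ R := by
  obtain ⟨K, hK⟩ := exists_Ms_sub_le S hA hu hp
  have hAu : IsKahler (addH A u) :=
    isKahler_of ((INT.IsKahler.isClosedForm hA).add (INT.isClosedForm_cHess hu)) hp
  refine le_of_forall_pos_le_add fun ε hε => ?_
  set k' : ℝ := max k (|K| / ε) with hk'
  have h1 : k ≤ k' := le_max_left _ _
  have h2 : 0 < k' := hk.trans_le h1
  have h3 : K / k' ≤ ε := by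
    rw [div_le_iff₀ h2]
    have h4 : |K| / ε ≤ k' := le_max_right _ _
    rw [div_le_iff₀ hε] at h4
    linarith [le_abs_self K, mul_comm ε k']
  have h5 := (abs_le.1 (hK k' h2)).2
  have h6 := Ms_mono S hAu.toIsHermitian hk h1
  have h7 := hR k' h2
  linarith

end

end Vale.Agent.P299.H167
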