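import Vale.Agent.P272.K.C2.PosLin
import Vale.Agent.P272.K.INT.Poly

/-!
# Matrix lemmas for the duality argument
-/

set_option autoImplicit false

open scoped ComplexOrder Matrix
open Matrix

noncomputable section

namespace Vale.Agent.P299.H167

open Vale.Agent.P272.K

variable {n : ℕ} {a b w T H : Matrix (Fin n) (Fin n) ℂ}

/-- `tr (H b) ≤ tr (H a) tr (a⁻¹ b)` -/
theorem trace_mul_le (hH : H.PosSemidef) (ha : a.PosDef) (hb : b.PosSemidef) :
    (H * b).trace.re ≤ (H * a).trace.re * (a⁻¹ * b).trace.re := by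
  have h1 := C2.trace_mul_nonneg hH (C2.trace_smul_sub_posSemidef ha hb)
  rw [Matrix.mul_sub, Matrix.trace_sub, Matrix.mul_smul, Matrix.trace_smul, smul_eq_mul] at h1
  have h2 : 0 ≤ (a⁻¹ * b).trace := C2.trace_mul_nonneg ha.inv.posSemidef hb
  have h3 := (Complex.le_def.1 h1).1
  have h4 : (a⁻¹ * b).trace.im = 0 := (Complex.le_def.1 h2).2.symm
  rw [Complex.sub_re, Complex.mul_re, h4, zero_mul, sub_zero, Complex.zero_re] at h3
  linarith [mul_comm (a⁻¹ * b).trace.re (H * a).trace.re]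

/-- simultaneous diagonalization -/
theorem exists_simdiag (ha : a.PosDef) (hb : b.IsHermitian) :
    ∃ (P : Matrix (Fin n) (Fin n) ℂ) (d : Fin n → ℝ), IsUnit P.det ∧ a = Pᴴ * P ∧
      b = Pᴴ * diagonal (fun i => (d i : ℂ)) * P := by
  obtain ⟨A, hA⟩ := C2.exists_factor ha.posSemidef
  have hdet : A.det ≠ 0 := by
    intro h
    have := ha.det_pos
    rw [hA, Matrix.det_mul, h, mul_zero] at this
    exact lt_irrefl _ this
  have hAu : IsUnit A.det := isUnit_iff_ne_zero.2 hdet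
  have hAu' : IsUnit Aᴴ.det := by
    rw [Matrix.det_conjTranspose]; exact hAu.star
  have hK : (A⁻¹ᴴ * b * A⁻¹).IsHermitian := isHermitian_conjTranspose_mul_mul _ hb
  set U : Matrix (Fin n) (Fin n) ℂ := (hK.eigenvectorUnitary : Matrix (Fin n) (Fin n) ℂ) with hU
  have hUU : U * Uᴴ = 1 := mem_unitaryGroup_iff.1 hK.eigenvectorUnitary.2
  have hspec : A⁻¹ᴴ * b * A⁻¹ = U * diagonal (fun i => ((hK.eigenvalues i : ℝ) : ℂ)) * Uᴴ := by
    have := hK.spectral_theorem
    rw [Unitary.conjStarAlgAut_apply, star_eq_conjTranspose] at this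
    exact this
  have h3 : Aᴴ * (A⁻¹ᴴ * b * A⁻¹) * A = b := by
    have a1 : Aᴴ * A⁻¹ᴴ = 1 := by
      rw [Matrix.conjTranspose_nonsing_inv, Matrix.mul_nonsing_inv _ hAu']
    calc Aᴴ * (A⁻¹ᴴ * b * A⁻¹) * A = (Aᴴ * A⁻¹ᴴ) * b * (A⁻¹ * A) := by
          simp only [Matrix.mul_assoc]
      _ = b := by rw [a1, Matrix.nonsing_inv_mul _ hAu, Matrix.one_mul, Matrix.mul_one]
  refine ⟨Uᴴ * A, hK.eigenvalues, ?_, ?_, ?_⟩
  · rw [det_mul]
    refine IsUnit.mul ?_ hAu
    exact Matrix.isUnit_det_of_left_inverse hUU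
  · rw [conjTranspose_mul, conjTranspose_conjTranspose, Matrix.mul_assoc, ← Matrix.mul_assoc U,
      hUU, Matrix.one_mul, hA]
  · calc b = Aᴴ * (A⁻¹ᴴ * b * A⁻¹) * A := h3.symm
      _ = Aᴴ * (U * diagonal (fun i => ((hK.eigenvalues i : ℝ) : ℂ)) * Uᴴ) * A :=
        congrArg (fun M => Aᴴ * M * A) hspec
      _ = _ := by
        rw [conjTranspose_mul, conjTranspose_conjTranspose]
        simp only [Matrix.mul_assoc]

/-- `det (Pᴴ M P) = |det P|² det M` -/
theorem det_conj_mul (P M : Matrix (Fin n) (Fin n) ℂ) :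
    (Pᴴ * M * P).det.re = ‖P.det‖ ^ 2 * M.det.re := by
  rw [det_mul, det_mul, det_conjTranspose]
  have : star P.det * M.det * P.det = ((‖P.det‖ ^ 2 : ℝ) : ℂ) * M.det := by
    rw [mul_comm (star P.det), mul_assoc, mul_comm, Complex.star_def, Complex.conj_mul']
    push_cast; ring
  rw [this, Complex.re_ofReal_mul]

/-- `tr ((Pᴴ D P)⁻¹ (Pᴴ B P)) = tr (D⁻¹ B)` -/
theorem trace_inv_conj {P D B : Matrix (Fin n) (Fin n) ℂ} (hP : IsUnit P.det)
    (_hD : IsUnit D.det) : ((Pᴴ * D * P)⁻¹ * (Pᴴ * B * P)).trace = (D⁻¹ * B).trace := by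
  have hP' : IsUnit Pᴴ.det := by rw [det_conjTranspose]; exact hP.star
  rw [Matrix.mul_inv_rev, Matrix.mul_inv_rev]
  have : P⁻¹ * (D⁻¹ * Pᴴ⁻¹) * (Pᴴ * B * P) = P⁻¹ * (D⁻¹ * B * P) := by
    calc P⁻¹ * (D⁻¹ * Pᴴ⁻¹) * (Pᴴ * B * P) = P⁻¹ * (D⁻¹ * ((Pᴴ⁻¹ * Pᴴ) * (B * P))) := by
          simp only [Matrix.mul_assoc]
      _ = P⁻¹ * (D⁻¹ * B * P) := by
          rw [nonsing_inv_mul _ hP', Matrix.one_mul, Matrix.mul_assoc]
  rw [this, Matrix.trace_mul_comm, Matrix.mul_assoc, mul_nonsing_inv _ hP, Matrix.mul_one]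

theorem re_prod_ofReal (f : Fin n → ℝ) : (∏ i, ((f i : ℝ) : ℂ)).re = ∏ i, f i := by
  rw [← Complex.ofReal_prod, Complex.ofReal_re]

theorem one_add_sum_le_prod {ι : Type*} (s : Finset ι) {f : ι → ℝ} (hf : ∀ i, 0 ≤ f i) :
    1 + ∑ i ∈ s, f i ≤ ∏ i ∈ s, (1 + f i) := by
  classical
  induction s using Finset.induction_on with
  | empty => simp
  | insert i s hi ih =>
    rw [Finset.sum_insert hi, Finset.prod_insert hi]
    have h1 : 1 ≤ ∏ j ∈ s, (1 + f j) := by
      have := Finset.sum_nonneg (s := s) fun j _ => hf j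
      linarith
    nlinarith [hf i]

theorem diag_nonneg {P : Matrix (Fin n) (Fin n) ℂ} {d : Fin n → ℝ} (hP : IsUnit P.det)
    (h : (Pᴴ * diagonal (fun i => (d i : ℂ)) * P).PosSemidef) (i : Fin n) : 0 ≤ d i := by
  have h1 := h.conjTranspose_mul_mul_same P⁻¹
  have hP' : IsUnit Pᴴ.det := by rw [det_conjTranspose]; exact hP.star
  have h2 : P⁻¹ᴴ * (Pᴴ * diagonal (fun i => (d i : ℂ)) * P) * P⁻¹ =
      diagonal (fun i => (d i : ℂ)) := by
    have a1 : P⁻¹ᴴ * Pᴴ = 1 := by
      rw [conjTranspose_nonsing_inv, nonsing_inv_mul _ hP']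
    calc P⁻¹ᴴ * (Pᴴ * diagonal (fun i => (d i : ℂ)) * P) * P⁻¹ =
          (P⁻¹ᴴ * Pᴴ) * diagonal (fun i => (d i : ℂ)) * (P * P⁻¹) := by
          simp only [Matrix.mul_assoc]
      _ = _ := by rw [a1, mul_nonsing_inv _ hP, Matrix.one_mul, Matrix.mul_one]
  rw [h2] at h1
  have h3 : 0 ≤ ((d i : ℝ) : ℂ) := posSemidef_diagonal_iff.1 h1 i
  exact_mod_cast h3

/-- `det a tr (a⁻¹ b) ≤ det (a + b)` -/
theorem det_mul_trace_le (ha : a.PosDef) (hb : b.PosSemidef) :
    (a⁻¹ * b).trace.re * a.det.re ≤ (a + b).det.re := by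
  obtain ⟨P, d, hP, h1, h2⟩ := exists_simdiag ha hb.isHermitian
  have hd : ∀ i, 0 ≤ d i := diag_nonneg hP (h2 ▸ hb)
  have e1 : a = Pᴴ * 1 * P := by rw [Matrix.mul_one]; exact h1
  have e2 : a + b = Pᴴ * diagonal (fun i => ((1 + d i : ℝ) : ℂ)) * P := by
    rw [h2, e1, ← Matrix.add_mul, ← Matrix.mul_add]
    congr 2
    ext i j
    by_cases hij : i = j
    · subst hij; simp
    · simp [hij]
  have e3 : (a⁻¹ * b).trace.re = ∑ i, d i := by
    rw [e1, h2, trace_inv_conj hP (by simp)]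
    simp [Matrix.trace]
  have e4 : a.det.re = ‖P.det‖ ^ 2 := by
    rw [e1, det_conj_mul]; simp
  rw [e3, e4, e2, det_conj_mul, det_diagonal, re_prod_ofReal, mul_comm]
  refine mul_le_mul_of_nonneg_left ?_ (by positivity)
  have := one_add_sum_le_prod Finset.univ hd
  linarith

/-- the pointwise degeneration estimate -/
theorem det_mul_trace_le_of_rank {ν : ℕ} {Λ δ : ℝ} (hw : w.PosDef) (hT : T.PosSemidef)
    (hΛ0 : 0 ≤ Λ) (hΛ : ((Λ : ℂ) • w - T).PosSemidef) (hν : T.rank ≤ ν) (hb : b.PosSemidef)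
    (hker : T.rank = ν → ∀ ξ : Fin n → ℂ, T *ᵥ ξ = 0 → star ξ ⬝ᵥ (b *ᵥ ξ) = 0)
    (hδ0 : 0 < δ) (hδ1 : δ ≤ 1) :
    ((T + (δ : ℂ) • w)⁻¹ * b).trace.re * (T + (δ : ℂ) • w).det.re ≤
      (Λ + 1) ^ n * δ ^ (n - ν) * ((w⁻¹ * b).trace.re * w.det.re) := by
  classical
  obtain ⟨P, d, hP, h1, h2⟩ := exists_simdiag hw hT.isHermitian
  have hP' : IsUnit Pᴴ.det := by rw [det_conjTranspose]; exact hP.star
  have hd : ∀ i, 0 ≤ d i := diag_nonneg hP (h2 ▸ hT)
  have e1 : w = Pᴴ * 1 * P := by rw [Matrix.mul_one]; exact h1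
  have hdΛ : ∀ i, d i ≤ Λ := by
    intro i
    have e : (Λ : ℂ) • w - T = Pᴴ * diagonal (fun i => ((Λ - d i : ℝ) : ℂ)) * P := by
      rw [h2, e1, ← Matrix.smul_mul, ← Matrix.mul_smul, ← Matrix.sub_mul, ← Matrix.mul_sub]
      congr 2
      ext i j
      by_cases hij : i = j
      · subst hij; simp
      · simp [hij]
    have := diag_nonneg hP (e ▸ hΛ) i
    linarith
  -- the transformed `b`
  set B : Matrix (Fin n) (Fin n) ℂ := P⁻¹ᴴ * b * P⁻¹ with hB
  have hBp : B.PosSemidef := hb.conjTranspose_mul_mul_same P⁻¹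
  have hbB : b = Pᴴ * B * P := by
    have a1 : Pᴴ * P⁻¹ᴴ = 1 := by
      rw [conjTranspose_nonsing_inv, mul_nonsing_inv _ hP']
    rw [hB]
    calc b = (Pᴴ * P⁻¹ᴴ) * b * (P⁻¹ * P) := by
          rw [a1, nonsing_inv_mul _ hP, Matrix.one_mul, Matrix.mul_one]
      _ = _ := by simp only [Matrix.mul_assoc]
  have hBd : ∀ i, 0 ≤ (B i i).re := fun i => (Complex.le_def.1 (hBp.diag_nonneg (i := i))).1
  have e2 : T + (δ : ℂ) • w = Pᴴ * diagonal (fun i => ((d i + δ : ℝ) : ℂ)) * P := by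
    rw [h2, e1, ← Matrix.smul_mul, ← Matrix.mul_smul, ← Matrix.add_mul, ← Matrix.mul_add]
    congr 2
    ext i j
    by_cases hij : i = j
    · subst hij; simp
    · simp [hij]
  have hdδ : ∀ i, 0 < d i + δ := fun i => by linarith [hd i]
  have hDu : IsUnit (diagonal (fun i => ((d i + δ : ℝ) : ℂ)) : Matrix (Fin n) (Fin n) ℂ).det := by
    rw [det_diagonal, isUnit_iff_ne_zero, Finset.prod_ne_zero_iff]
    intro i _
    exact_mod_cast (hdδ i).ne'
  have hDi : (diagonal (fun i => ((d i + δ : ℝ) : ℂ)) : Matrix (Fin n) (Fin n) ℂ)⁻¹ =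
      diagonal (fun i => (((d i + δ)⁻¹ : ℝ) : ℂ)) := by
    apply Matrix.inv_eq_right_inv
    rw [diagonal_mul_diagonal, ← diagonal_one]
    congr 1
    funext i
    have := (hdδ i).ne'
    rw [← Complex.ofReal_mul, mul_inv_cancel₀ this, Complex.ofReal_one]
  have e3 : ((T + (δ : ℂ) • w)⁻¹ * b).trace.re = ∑ i, (d i + δ)⁻¹ * (B i i).re := by
    rw [e2, hbB, trace_inv_conj hP hDu, hDi, Matrix.trace, Complex.re_sum]
    refine Finset.sum_congr rfl fun i _ => ?_
    rw [diag_apply, diagonal_mul, Complex.re_ofReal_mul]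
  have e4 : (w⁻¹ * b).trace.re = ∑ i, (B i i).re := by
    rw [e1, hbB, trace_inv_conj hP (by simp)]
    simp [Matrix.trace]
  have e5 : w.det.re = ‖P.det‖ ^ 2 := by
    rw [e1, det_conj_mul]; simp
  have e6 : (T + (δ : ℂ) • w).det.re = ‖P.det‖ ^ 2 * ∏ i, (d i + δ) := by
    rw [e2, det_conj_mul, det_diagonal, re_prod_ofReal]
  -- rank
  set Z : Finset (Fin n) := Finset.univ.filter fun i => d i = 0 with hZ
  have hrank : T.rank + Z.card = n := by
    have r1 : T.rank = (diagonal (fun i => (d i : ℂ)) : Matrix (Fin n) (Fin n) ℂ).rank := by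
      rw [h2, rank_mul_eq_left_of_isUnit_det _ _ hP, rank_mul_eq_right_of_isUnit_det _ _ hP']
    rw [r1, rank_diagonal, Fintype.card_subtype]
    have h3 : (Finset.univ.filter fun i : Fin n => ((d i : ℝ) : ℂ) ≠ 0) =
        Finset.univ.filter fun i : Fin n => ¬ d i = 0 := by
      ext i; simp
    rw [h3, add_comm, hZ]
    have := Finset.card_filter_add_card_filter_not (s := (Finset.univ : Finset (Fin n)))
      (fun i => d i = 0)
    simpa using this
  -- the estimate for each index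
  have hkey : ∀ i, (∏ j, (d j + δ)) * ((d i + δ)⁻¹ * (B i i).re) ≤
      (Λ + 1) ^ n * δ ^ (n - ν) * (B i i).re := by
    intro i
    have hprod : (∏ j, (d j + δ)) * (d i + δ)⁻¹ = ∏ j ∈ Finset.univ.erase i, (d j + δ) := by
      rw [← Finset.mul_prod_erase Finset.univ _ (Finset.mem_univ i)]
      have := (hdδ i).ne'
      field_simp
    have hle : ∏ j ∈ Finset.univ.erase i, (d j + δ) ≤ (Λ + 1) ^ n * δ ^ (Z.erase i).card := by
      have s1 : ∏ j ∈ Finset.univ.erase i, (d j + δ) ≤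
          ∏ j ∈ Finset.univ.erase i, ((Λ + 1) * if d j = 0 then δ else 1) := by
        refine Finset.prod_le_prod (fun j _ => (hdδ j).le) fun j _ => ?_
        split_ifs with hj
        · rw [hj, zero_add]; nlinarith
        · linarith [hdΛ j]
      have s2 : ∏ j ∈ Finset.univ.erase i, ((Λ + 1) * if d j = 0 then δ else 1) =
          (Λ + 1) ^ (Finset.univ.erase i).card * δ ^ (Z.erase i).card := by
        have hf : (Finset.univ.erase i).filter (fun j => d j = 0) = Z.erase i := by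
          ext j
          simp [hZ, and_comm]
        rw [Finset.prod_mul_distrib, Finset.prod_const, Finset.prod_ite, hf]
        simp only [Finset.prod_const, one_pow, mul_one]
      rw [s2] at s1
      refine s1.trans (mul_le_mul_of_nonneg_right ?_ (by positivity))
      refine pow_le_pow_right₀ (by linarith) ?_
      calc (Finset.univ.erase i).card ≤ (Finset.univ : Finset (Fin n)).card :=
            Finset.card_le_card (Finset.erase_subset _ _)
        _ = n := by simp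
    have hB0 : n - ν ≤ (Z.erase i).card ∨ (B i i).re = 0 := by
      by_cases hi : d i = 0
      · have hiZ : i ∈ Z := by simp [hZ, hi]
        have hc : (Z.erase i).card + 1 = Z.card := Finset.card_erase_add_one hiZ
        rcases lt_or_eq_of_le hν with hlt | heq
        · left; omega
        · right
          have hξ := hker heq (P⁻¹ *ᵥ Pi.single i 1) (by
            rw [h2, Matrix.mulVec_mulVec, Matrix.mul_assoc, mul_nonsing_inv _ hP, Matrix.mul_one,
              ← Matrix.mulVec_mulVec]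
            have : (diagonal (fun i => (d i : ℂ)) : Matrix (Fin n) (Fin n) ℂ) *ᵥ Pi.single i 1 =
                0 := by
              ext j
              rw [mulVec_diagonal]
              by_cases hij : j = i
              · subst hij; simp [hi]
              · simp [hij]
            rw [this, mulVec_zero])
          have h5 : star (P⁻¹ *ᵥ (Pi.single i 1 : Fin n → ℂ)) ⬝ᵥ
              (b *ᵥ (P⁻¹ *ᵥ (Pi.single i 1 : Fin n → ℂ))) = B i i := by
            have h51 : star (Pi.single i (1 : ℂ) : Fin n → ℂ) ⬝ᵥ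
                (B *ᵥ (Pi.single i (1 : ℂ) : Fin n → ℂ)) = B i i := by
              rw [mulVec_single, MulOpposite.op_one, one_smul]
              have : star (Pi.single i (1 : ℂ) : Fin n → ℂ) = Pi.single i 1 := by
                ext j
                by_cases hij : j = i
                · subst hij; simp
                · simp [hij]
              rw [this, single_one_dotProduct]
              rfl
            rw [← h51, hB, star_mulVec, ← Matrix.mulVec_mulVec, ← Matrix.mulVec_mulVec,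
              ← Matrix.dotProduct_mulVec]
          rw [h5] at hξ
          rw [hξ]; simp
      · left
        have hiZ : i ∉ Z := by simp [hZ, hi]
        rw [Finset.erase_eq_of_notMem hiZ]
        omega
    calc (∏ j, (d j + δ)) * ((d i + δ)⁻¹ * (B i i).re)
        = (∏ j ∈ Finset.univ.erase i, (d j + δ)) * (B i i).re := by
          rw [← mul_assoc, hprod]
      _ ≤ (Λ + 1) ^ n * δ ^ (Z.erase i).card * (B i i).re :=
          mul_le_mul_of_nonneg_right hle (hBd i)
      _ ≤ (Λ + 1) ^ n * δ ^ (n - ν) * (B i i).re := by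
          rcases hB0 with h | h
          · refine mul_le_mul_of_nonneg_right (mul_le_mul_of_nonneg_left ?_ (by positivity)) (hBd i)
            exact pow_le_pow_of_le_one hδ0.le hδ1 h
          · rw [h]; simp
  rw [e3, e4, e5, e6]
  calc (∑ i, (d i + δ)⁻¹ * (B i i).re) * (‖P.det‖ ^ 2 * ∏ i, (d i + δ))
      = ‖P.det‖ ^ 2 * ∑ i, (∏ j, (d j + δ)) * ((d i + δ)⁻¹ * (B i i).re) := by
        rw [← Finset.mul_sum]; ring
    _ ≤ ‖P.det‖ ^ 2 * ∑ i, (Λ + 1) ^ n * δ ^ (n - ν) * (B i i).re :=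
        mul_le_mul_of_nonneg_left (Finset.sum_le_sum fun i _ => hkey i) (by positivity)
    _ = _ := by rw [← Finset.mul_sum]; ring

end Vale.Agent.P299.H167
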