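import Vale.Agent.P272.K.AMP.Vol

/-!
# The measure `volX` in a chart
-/

set_option autoImplicit false
set_option linter.unusedSectionVars false

open scoped Manifold ContDiff ComplexOrder Topology ENNReal
open MeasureTheory Set Filter

noncomputable section

namespace Vale.Agent.P299.H167

open Vale.Agent.P272.K Vale.Agent.P272.K.AMP
open INT (IsDensity intX part Part)

variable {n : ℕ} {X : Type*} [TopologicalSpace X] [ChartedSpace (Cm n) X]
  [IsManifold 𝓘(ℂ, Cm n) ω X] [T2Space X] [CompactSpace X] [MeasurableSpace X] [BorelSpace X]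

/-- change of variables for one piece of the partition of unity -/
theorem lintegral_piece {D : Chart n X → Cm n → ℝ} (hD : IsDensity D)
    {e e' : Chart n X} (he : e ∈ atlas (Cm n) X)
    (he' : e' ∈ atlas (Cm n) X) {ρ : X → ℝ} (hρ : ∀ x, x ∉ e'.source → ρ x = 0)
    {G : X → ℝ≥0∞} (hG : ∀ x, x ∉ e.source → G x = 0) :
    ∫⁻ z in e'.target, ENNReal.ofReal (ρ (e'.symm z) * D e' z) * G (e'.symm z) =
      ∫⁻ z in e.target, ENNReal.ofReal (ρ (e.symm z) * D e z) * G (e.symm z) := by
  set S := e.symm ≫ₕ e' with hS
  have hsrc : S.source = e.target ∩ e.symm ⁻¹' e'.source := by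
    rw [hS, OpenPartialHomeomorph.trans_source]; rfl
  have htgt : S.target = e'.target ∩ e'.symm ⁻¹' e.source := by
    rw [hS, OpenPartialHomeomorph.trans_target]; rfl
  have e1 : ∫⁻ z in e.target, ENNReal.ofReal (ρ (e.symm z) * D e z) * G (e.symm z) =
      ∫⁻ z in S.source, ENNReal.ofReal (ρ (e.symm z) * D e z) * G (e.symm z) := by
    rw [← lintegral_indicator e.open_target.measurableSet,
      ← lintegral_indicator S.open_source.measurableSet]
    congr 1
    funext z
    by_cases h1 : z ∈ S.source
    · have h2 : z ∈ e.target := by rw [hsrc] at h1; exact h1.1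
      rw [indicator_of_mem h1, indicator_of_mem h2]
    · rw [indicator_of_notMem h1]
      by_cases h2 : z ∈ e.target
      · rw [indicator_of_mem h2]
        have : e.symm z ∉ e'.source := fun h => h1 (by rw [hsrc]; exact ⟨h2, h⟩)
        rw [hρ _ this, zero_mul, ENNReal.ofReal_zero, zero_mul]
      · rw [indicator_of_notMem h2]
  have e2 : ∫⁻ z in e'.target, ENNReal.ofReal (ρ (e'.symm z) * D e' z) * G (e'.symm z) =
      ∫⁻ z in S.target, ENNReal.ofReal (ρ (e'.symm z) * D e' z) * G (e'.symm z) := by
    rw [← lintegral_indicator e'.open_target.measurableSet,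
      ← lintegral_indicator S.open_target.measurableSet]
    congr 1
    funext z
    by_cases h1 : z ∈ S.target
    · have h2 : z ∈ e'.target := by rw [htgt] at h1; exact h1.1
      rw [indicator_of_mem h1, indicator_of_mem h2]
    · rw [indicator_of_notMem h1]
      by_cases h2 : z ∈ e'.target
      · rw [indicator_of_mem h2]
        have : e'.symm z ∉ e.source := fun h => h1 (by rw [htgt]; exact ⟨h2, h⟩)
        rw [hG _ this, mul_zero]
      · rw [indicator_of_notMem h2]
  have e3 : (S : Cm n → Cm n) '' S.source = S.target := S.image_source_eq_target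
  have hd : ∀ z ∈ S.source, HasFDerivWithinAt S (fderiv ℝ S z) S.source z := by
    intro z hz
    rw [hsrc] at hz
    have hx : At e (e.symm z) := ⟨he, e.map_target hz.1⟩
    have hx' : At e' (e.symm z) := ⟨he', hz.2⟩
    have h := INT.transition_contDiffAt hx hx'
    rw [e.right_inv hz.1] at h
    have h' : DifferentiableAt ℝ (fun z => e' (e.symm z)) z :=
      (h.differentiableAt (by simp)).restrictScalars ℝ
    exact h'.hasFDerivAt.hasFDerivWithinAt
  rw [e1, e2, ← e3, lintegral_image_eq_lintegral_abs_det_fderiv_mul volume
    S.open_source.measurableSet hd S.injOn]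
  refine setLIntegral_congr_fun S.open_source.measurableSet fun z hz => ?_
  rw [hsrc] at hz
  have hx : At e (e.symm z) := ⟨he, e.map_target hz.1⟩
  have hx' : At e' (e.symm z) := ⟨he', hz.2⟩
  have hdet : (fderiv ℝ S z).det = ‖(jacM e e' (e.symm z)).det‖ ^ 2 := by
    have := INT.det_trans hx hx'
    rw [e.right_inv hz.1] at this
    exact this
  have hch := hD.change e e' (e.symm z) hx hx'
  rw [e.right_inv hz.1] at hch
  have hSz : S z = e' (e.symm z) := rfl
  rw [hdet, hSz, e'.left_inv hz.2, hch, abs_of_nonneg (by positivity), ← mul_assoc,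
    ← ENNReal.ofReal_mul (by positivity)]
  congr 2
  ring

theorem lintegral_volD {D : Chart n X → Cm n → ℝ} (hD : IsDensity D)
    (h0 : ∀ e x, At e x → 0 ≤ D e (e x)) {e : Chart n X} (he : e ∈ atlas (Cm n) X)
    {G : X → ℝ≥0∞} (hGm : Measurable G) (hG : ∀ x, x ∉ e.source → G x = 0) :
    ∫⁻ x, G x ∂(volD D) = ∫⁻ z in e.target, ENNReal.ofReal (D e z) * G (e.symm z) := by
  have hp : ∀ i, ∫⁻ x, G x ∂((volPiece D i).map ((part n X).e i).symm) =
      ∫⁻ z in e.target, ENNReal.ofReal ((part n X).ρ i (e.symm z) * D e z) * G (e.symm z) := by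
    intro i
    rw [lintegral_map' hGm.aemeasurable (aemeasurable_symm D i)]
    unfold volPiece
    rw [lintegral_withDensity_eq_lintegral_mul₀' (dens_aemeasurable hD i).ennreal_ofReal
      (g := fun z => G (((part n X).e i).symm z)) (hGm.comp_aemeasurable (aemeasurable_symm D i))]
    have := lintegral_piece hD he ((part n X).mem i) (ρ := (part n X).ρ i)
      (fun x hx => image_eq_zero_of_notMem_tsupport fun h => hx ((part n X).supp i h)) hG
    rw [← this]
    rfl
  unfold volD
  rw [lintegral_finsetSum_measure]
  simp only [hp]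
  rw [← lintegral_finsetSum']
  · refine setLIntegral_congr_fun e.open_target.measurableSet fun z hz => ?_
    rw [← Finset.sum_mul]
    congr 1
    have hDz : 0 ≤ D e z := by
      have := h0 e (e.symm z) ⟨he, e.map_target hz⟩
      rwa [e.right_inv hz] at this
    rw [← ENNReal.ofReal_sum_of_nonneg fun i _ => mul_nonneg ((part n X).nonneg i _) hDz,
      ← Finset.sum_mul, (part n X).sum, one_mul]
  · intro i _
    have h1 : AEMeasurable (fun z => (part n X).ρ i (e.symm z) * D e z)
        (volume.restrict e.target) :=
      ((((part n X).cont i).comp_continuousOn e.continuousOn_symm).mul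
        (hD.continuousOn he)).aemeasurable e.open_target.measurableSet
    exact h1.ennreal_ofReal.mul (hGm.comp_aemeasurable
      (e.continuousOn_symm.aemeasurable e.open_target.measurableSet))

/-- `volD D`, restricted to the domain of a chart, is `D` times Lebesgue measure -/
theorem volD_restrict {D : Chart n X → Cm n → ℝ} (hD : IsDensity D)
    (h0 : ∀ e x, At e x → 0 ≤ D e (e x)) {e : Chart n X} (he : e ∈ atlas (Cm n) X) :
    (volD D).restrict e.source =
      (((volume.restrict e.target).withDensity fun z => ENNReal.ofReal (D e z)).map e.symm) := by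
  have hm : AEMeasurable e.symm
      ((volume.restrict e.target).withDensity fun z => ENNReal.ofReal (D e z)) :=
    (e.continuousOn_symm.aemeasurable e.open_target.measurableSet).mono_ac
      (withDensity_absolutelyContinuous _ _)
  have hDm : AEMeasurable (fun z => ENNReal.ofReal (D e z)) (volume.restrict e.target) :=
    ((hD.continuousOn he).aemeasurable e.open_target.measurableSet).ennreal_ofReal
  ext A hA
  have m1 : Measurable ((A ∩ e.source).indicator (1 : X → ℝ≥0∞)) :=
    measurable_one.indicator (hA.inter e.open_source.measurableSet)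
  have m2 : Measurable (A.indicator (1 : X → ℝ≥0∞)) := measurable_one.indicator hA
  rw [Measure.restrict_apply hA, ← lintegral_indicator_one (hA.inter e.open_source.measurableSet),
    ← lintegral_indicator_one hA,
    lintegral_volD hD h0 he m1 (fun x hx => indicator_of_notMem (fun h => hx h.2) _),
    lintegral_map' m2.aemeasurable hm,
    lintegral_withDensity_eq_lintegral_mul₀' hDm
      (g := fun z => A.indicator (1 : X → ℝ≥0∞) (e.symm z)) (m2.comp_aemeasurable hm)]
  refine setLIntegral_congr_fun e.open_target.measurableSet fun z hz => ?_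
  have hs : e.symm z ∈ e.source := e.map_target hz
  simp only [Pi.mul_apply]
  congr 1
  by_cases h : e.symm z ∈ A
  · rw [indicator_of_mem h, indicator_of_mem (show e.symm z ∈ A ∩ e.source from ⟨h, hs⟩)]
  · rw [indicator_of_notMem h, indicator_of_notMem fun h' => h h'.1]

/-- integrals over a chart domain -/
theorem integral_volD_chart {D : Chart n X → Cm n → ℝ} (hD : IsDensity D)
    (h0 : ∀ e x, At e x → 0 ≤ D e (e x)) {e : Chart n X} (he : e ∈ atlas (Cm n) X)
    {f : X → ℝ} (hf : Measurable f) (hfe : ∀ x, x ∉ e.source → f x = 0) :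
    ∫ x, f x ∂(volD D) = ∫ z in e.target, D e z * f (e.symm z) := by
  have h1 : ∫ x, f x ∂(volD D) = ∫ x in e.source, f x ∂(volD D) :=
    (setIntegral_eq_integral_of_forall_compl_eq_zero hfe).symm
  have hm : AEMeasurable e.symm
      ((volume.restrict e.target).withDensity fun z => ENNReal.ofReal (D e z)) :=
    (e.continuousOn_symm.aemeasurable e.open_target.measurableSet).mono_ac
      (withDensity_absolutelyContinuous _ _)
  have hDm : AEMeasurable (fun z => ENNReal.ofReal (D e z)) (volume.restrict e.target) :=
    ((hD.continuousOn he).aemeasurable e.open_target.measurableSet).ennreal_ofReal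
  rw [h1, volD_restrict hD h0 he, integral_map hm hf.aestronglyMeasurable,
    integral_withDensity_eq_integral_toReal_smul₀ hDm
      (Eventually.of_forall fun z => ENNReal.ofReal_lt_top)]
  refine setIntegral_congr_fun e.open_target.measurableSet fun z hz => ?_
  have hDz : 0 ≤ D e z := by
    have := h0 e (e.symm z) ⟨he, e.map_target hz⟩
    rwa [e.right_inv hz] at this
  simp only [smul_eq_mul, ENNReal.toReal_ofReal hDz]

end Vale.Agent.P299.H167
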