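import Vale.Agent.P299.H167.Dual
import Vale.Agent.P299.H167.VolChart

/-!
# The output of the duality argument in charts
-/

set_option autoImplicit false
set_option linter.unusedSectionVars false

open scoped Manifold ContDiff ComplexOrder Matrix Topology InnerProductSpace ENNReal
open Matrix MeasureTheory Set Filter

noncomputable section

namespace Vale.Agent.P299.H167

open Vale.Agent.P272.K Vale.Agent.P272.K.AMP
open INT (IsDensity intX IsClosedForm)

variable {n : ℕ} {X : Type} [TopologicalSpace X] [ChartedSpace (Cm n) X]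
  {w η Θ : Chart n X → Cm n → Matrix (Fin n) (Fin n) ℂ} {E : X → ℝ} {C k Λ : ℝ} {ν : ℕ}
  {e : Chart n X} {x : X}

theorem contDiffAt_bet (S : Setup w η E C) (hx : At e x) (h0 : 0 < E x) (i j : Fin n) :
    ContDiffAt ℝ ∞ (fun z => bet η E e z i j) (e x) := by
  have hE : ContDiffAt ℝ ∞ (fun z => E (e.symm z)) (e x) := S.hE e x hx
  have hne : E (e.symm (e x)) ≠ 0 := by rw [e.left_inv hx.2]; exact h0.ne'
  have h1 : ContDiffAt ℝ ∞ (fun z => (((E (e.symm z))⁻¹ : ℝ) : ℂ)) (e x) :=
    C2.contDiffAt_ofReal (hE.inv hne)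
  have h2 : ContDiffAt ℝ ∞ (fun z => ((((E (e.symm z)) ^ 2)⁻¹ : ℝ) : ℂ)) (e x) :=
    C2.contDiffAt_ofReal ((hE.pow 2).inv (pow_ne_zero 2 hne))
  exact (S.smooth e x hx i j).add ((h1.mul (contDiffAt_cHess (S.hE e x hx) (le_of_eq rfl) i j)).sub
    (h2.mul (contDiffAt_dd' S.hE hx i j)))
where
  contDiffAt_dd' {u : X → ℝ} (hu : SmoothFn (n := n) u) {e : Chart n X} {x : X} (hx : At e x)
      (i j : Fin n) : ContDiffAt ℝ ∞ (fun y => dd u u e y i j) (e x) := by
    simp only [dd, Matrix.of_apply]
    exact (INT.smooth_dz (C2.contDiffAt_ofReal (hu e x hx))).mul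
      (INT.smooth_dzb (C2.contDiffAt_ofReal (hu e x hx)))

theorem tendsto_cutU {x : X} (h0 : 0 < E x) :
    Tendsto (fun m : ℕ => cutU ((m : ℝ) + 1) E x) atTop (𝓝 1) := by
  have h1 : Tendsto (fun m : ℕ => 2 / ((m : ℝ) + 1) * Real.log (E x) + 1) atTop (𝓝 1) := by
    have h2 : Tendsto (fun m : ℕ => 2 / ((m : ℝ) + 1)) atTop (𝓝 0) :=
      (tendsto_const_nhds.div_atTop (tendsto_natCast_atTop_atTop.atTop_add tendsto_const_nhds))
    have := (h2.mul_const (Real.log (E x))).add_const 1
    simpa using this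
  have h3 : Tendsto (fun m : ℕ => (Pr 1)⁻¹ * Pr (2 / ((m : ℝ) + 1) * Real.log (E x) + 1)) atTop
      (𝓝 ((Pr 1)⁻¹ * Pr 1)) := ((contDiff_Pr.continuous.tendsto 1).comp h1).const_mul _
  rw [inv_mul_cancel₀ Pr_one_pos.ne'] at h3
  refine h3.congr fun m => ?_
  rw [cutU, LP_of_pos h0]

variable [IsManifold 𝓘(ℂ, Cm n) ω X] [T2Space X] [CompactSpace X] [PreconnectedSpace X]
  [Nonempty X]

/-- **`Θ + i∂∂̄V ≥ ε β` on `E > 0`, with `V ≤ 0` and `exp (-d V)` locally integrable.** -/
theorem Data.psef (D : Data w Θ η E C Λ ν) : ∃ ε : ℝ, 0 < ε ∧ ∃ d : ℝ, 0 < d ∧ ∃ V : X → ℝ,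
    @Measurable X ℝ (borel X) _ V ∧
    (∀ e ∈ atlas (Cm n) X, AEMeasurable (fun z => V (e.symm z)) (volume.restrict e.target)) ∧
    (∀ x, V x ≤ 0) ∧
    (∀ (e : Chart n X) x, At e x → ∃ O ∈ 𝓝 (e x), IntegrableOn (fun z => V (e.symm z)) O) ∧
    (∀ (e : Chart n X) x, At e x → ∃ O ∈ 𝓝 (e x),
      ∫⁻ z in O, ENNReal.ofReal (Real.exp (-d * V (e.symm z))) < ⊤) ∧
    ∀ e ∈ atlas (Cm n) X, ∀ H : Cm n → Matrix (Fin n) (Fin n) ℂ,
      (∀ i j, ContDiff ℝ ∞ fun z => H z i j) → (∀ i j, HasCompactSupport fun z => H z i j) →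
      (∀ i j, tsupport (fun z => H z i j) ⊆ e.target ∩ e.symm ⁻¹' {x | 0 < E x}) →
      (∀ z, (H z).PosSemidef) →
      ε * (∫ z, (∑ l, ∑ k, H z l k * bet η E e z k l).re) ≤
        (∫ z, (∑ l, ∑ k, H z l k * Θ e z k l).re) +
          (∫ z, V (e.symm z) * (∑ k, ∑ l, dz k (dzb l fun y => H y l k) z).re) := by
  let _ : MeasurableSpace X := borel X
  have _ : BorelSpace X := ⟨rfl⟩
  have hwH := D.S.hw.toIsHermitian
  have hdens : IsDensity (fun (e : Chart n X) z => (w e z).det.re) := isDensity_det_metric hwH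
  have hdens0 : ∀ (e : Chart n X) x, At e x → 0 ≤ (w e (e x)).det.re := fun e x hx =>
    (det_metric_pos hwH e x hx).le
  obtain ⟨K, hK, a, ha, B, hB, v, hv, hmain⟩ := D.dual
  set V : X → ℝ := fun x => min (v x) 0 with hV
  have hVm : Measurable V := (Lp.stronglyMeasurable v).measurable.min measurable_const
  have hV0 : ∀ x, V x ≤ 0 := fun x => min_le_right _ _
  have hVv : ∀ᵐ x ∂(volX w), v x = V x := by
    filter_upwards [hv.1] with x hx
    rw [hV]; simp only; rw [min_eq_left hx]
  have hexp : ∫⁻ x, ENNReal.ofReal (Real.exp (-a * V x)) ∂(volX w) ≤ B := by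
    refine le_trans (le_of_eq (lintegral_congr_ae ?_)) hv.2
    filter_upwards [hVv] with x hx
    rw [hx, neg_mul]
  have hexpm : Measurable fun x => ENNReal.ofReal (Real.exp (-a * V x)) :=
    (Real.measurable_exp.comp (hVm.const_mul (-a))).ennreal_ofReal
  -- exponential integrability in charts
  have hchart : ∀ (e : Chart n X) x, At e x → ∃ O ∈ 𝓝 (e x), O ⊆ e.target ∧ MeasurableSet O ∧
      ∫⁻ z in O, ENNReal.ofReal (Real.exp (-a * V (e.symm z))) < ⊤ := by
    intro e x hx
    have hc0 : 0 < (w e (e x)).det.re := det_metric_pos hwH e x hx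
    set c : ℝ := (w e (e x)).det.re / 2 with hc
    have hcpos : 0 < c := by positivity
    have h1 : ∀ᶠ z in 𝓝 (e x), c < (w e z).det.re :=
      (hdens.cont e x hx).eventually (lt_mem_nhds (by linarith))
    obtain ⟨O, hO1, hO2, hO3⟩ := mem_nhds_iff.1 (Filter.inter_mem h1 hx.nhds_target)
    refine ⟨O, hO2.mem_nhds hO3, fun z hz => (hO1 hz).2, hO2.measurableSet, ?_⟩
    have h2 : ∫⁻ z in e.target, ENNReal.ofReal ((w e z).det.re) *
        (e.source.indicator (fun x => ENNReal.ofReal (Real.exp (-a * V x)))) (e.symm z) ≤ B := by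
      rw [← lintegral_volD hdens hdens0 hx.1 (hexpm.indicator e.open_source.measurableSet)
        (fun x hx => indicator_of_notMem hx _)]
      refine le_trans (lintegral_mono fun x => ?_) hexp
      exact indicator_le_self _ _ x
    have h3 : ∫⁻ z in O, ENNReal.ofReal c * ENNReal.ofReal (Real.exp (-a * V (e.symm z))) ≤ B := by
      refine le_trans ?_ h2
      refine le_trans (setLIntegral_mono' hO2.measurableSet fun z hz => ?_)
        (lintegral_mono_set fun z hz => (hO1 hz).2)
      have hs : e.symm z ∈ e.source := e.map_target (hO1 hz).2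
      rw [indicator_of_mem hs]
      exact mul_le_mul_left (ENNReal.ofReal_le_ofReal (le_of_lt (hO1 hz).1)) _
    rw [lintegral_const_mul' _ _ ENNReal.ofReal_ne_top] at h3
    have h4 : ENNReal.ofReal c ≠ 0 := by
      rw [Ne, ENNReal.ofReal_eq_zero, not_le]; exact hcpos
    by_contra h5
    rw [not_lt, top_le_iff] at h5
    rw [h5, ENNReal.mul_top h4, top_le_iff] at h3
    exact hB h3
  have hVe : ∀ e ∈ atlas (Cm n) X,
      AEMeasurable (fun z => V (e.symm z)) (volume.restrict e.target) := fun e _ =>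
    hVm.comp_aemeasurable (e.continuousOn_symm.aemeasurable e.open_target.measurableSet)
  refine ⟨K⁻¹, inv_pos.2 hK, a, ha, V, hVm, hVe, hV0, ?_, ?_, ?_⟩
  · intro e x hx
    obtain ⟨O, hO, hOt, hOm, hfin⟩ := hchart e x hx
    refine ⟨O, hO, ?_, ?_⟩
    · exact ((hVe e hx.1).mono_measure (Measure.restrict_mono hOt le_rfl)).aestronglyMeasurable
    · rw [hasFiniteIntegral_iff_enorm]
      have h1 : ∀ z, ‖V (e.symm z)‖ₑ ≤
          ENNReal.ofReal a⁻¹ * ENNReal.ofReal (Real.exp (-a * V (e.symm z))) := by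
        intro z
        rw [← ofReal_norm, ← ENNReal.ofReal_mul (inv_pos.2 ha).le]
        refine ENNReal.ofReal_le_ofReal ?_
        rw [Real.norm_eq_abs, abs_of_nonpos (hV0 _)]
        have h2 := Real.add_one_le_exp (-a * V (e.symm z))
        rw [inv_mul_eq_div, le_div_iff₀ ha]
        linarith
      refine lt_of_le_of_lt (lintegral_mono h1) ?_
      rw [lintegral_const_mul' _ _ ENNReal.ofReal_ne_top]
      exact ENNReal.mul_lt_top ENNReal.ofReal_lt_top hfin
  · intro e x hx
    obtain ⟨O, hO, -, -, hfin⟩ := hchart e x hx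
    exact ⟨O, hO, hfin⟩
  · intro e he H hHs hHc hHt hHp
    -- the support
    set Ks : Set (Cm n) := ⋃ i, ⋃ j, tsupport (fun z => H z i j) with hKs
    have hKc : IsCompact Ks := isCompact_iUnion fun i => isCompact_iUnion fun j => hHc i j
    have hKt : Ks ⊆ e.target ∩ e.symm ⁻¹' {x | 0 < E x} :=
      iUnion_subset fun i => iUnion_subset fun j => hHt i j
    have hKe : Ks ⊆ e.target := fun z hz => (hKt hz).1
    have hKE : ∀ z ∈ Ks, 0 < E (e.symm z) := fun z hz => (hKt hz).2
    have hH0 : ∀ z, z ∉ Ks → H z = 0 := by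
      intro z hz
      ext i j
      refine image_eq_zero_of_notMem_tsupport (f := fun z => H z i j) fun h => hz ?_
      exact mem_iUnion.2 ⟨i, mem_iUnion.2 ⟨j, h⟩⟩
    let T : ℕ → Tst n X := fun m => ⟨e, he, H, hHs, hHp, Ks, hKc, hKe, hH0, (m : ℝ) + 1,
      by positivity⟩
    have etr : ∀ (b : Chart n X → Cm n → Matrix (Fin n) (Fin n) ℂ) (z : Cm n),
        (∑ l, ∑ k, H z l k * b e z k l).re = trH H (b e) z := fun b z => rfl
    have hzero : ∀ (b : Chart n X → Cm n → Matrix (Fin n) (Fin n) ℂ) (z : Cm n), z ∉ Ks →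
        trH H (b e) z = 0 := fun b z hz => by simp [trH, hH0 z hz]
    simp only [etr]
    have eDH : ∀ z, (∑ k, ∑ l, dz k (dzb l fun y => H y l k) z).re = DH H z := fun z => rfl
    simp only [eDH]
    -- the terms on the right
    have r1 : ∀ m, IX w ((T m).P w Θ) = ∫ z, trH H (Θ e) z := by
      intro m
      have h1 := (T m).IX_mul_P hwH D.smooth (h := fun _ => 1) continuous_const
      simp only [one_mul] at h1
      refine h1.trans ?_
      exact setIntegral_eq_integral_of_forall_compl_eq_zero fun z hz =>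
        hzero Θ z fun h => hz (hKe h)
    have r2 : ∀ m, ∫ x, v x * (T m).F w x ∂(volX w) = ∫ z, V (e.symm z) * DH H z := by
      intro m
      have h1 : ∫ x, v x * (T m).F w x ∂(volX w) = ∫ x, V x * (T m).F w x ∂(volX w) := by
        refine integral_congr_ae ?_
        filter_upwards [hVv] with x hx
        rw [hx]
      have h2 := integral_volD_chart hdens hdens0 he (f := fun x => V x * (T m).F w x)
        (hVm.mul ((T m).cont_F hwH).measurable) (fun x hx => by
          rw [Tst.F, tp_of_notMem hx, mul_zero])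
      rw [h1]
      refine (show ∫ x, V x * (T m).F w x ∂(volX w) = _ from h2).trans ?_
      rw [← setIntegral_eq_integral_of_forall_compl_eq_zero (s := e.target)
        (f := fun z => V (e.symm z) * DH H z) fun z hz => by
          rw [(T m).DH_zero' fun h => hz (hKe h), mul_zero]]
      refine setIntegral_congr_fun e.open_target.measurableSet fun z hz => ?_
      have hs : e.symm z ∈ e.source := e.map_target hz
      have hd : (w e z).det.re ≠ 0 := by
        have := det_metric_pos hwH e (e.symm z) ⟨he, hs⟩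
        rw [e.right_inv hz] at this
        exact this.ne'
      show (w e z).det.re * (V (e.symm z) * tp w e (DH H) (e.symm z)) = V (e.symm z) * DH H z
      rw [tp_of_mem hs, e.right_inv hz]
      field_simp
    -- the term on the left
    have l1 : ∀ m, IX w (fun x => cutU (T m).k E x * (T m).P w (bet η E) x) =
        ∫ z in Ks, cutU ((m : ℝ) + 1) E (e.symm z) * trH H (bet η E e) z := by
      intro m
      have h1 : (fun x => cutU (T m).k E x * (T m).P w (bet η E) x) =
          fun x => cutU (T m).k E x * (T m).P w (addH η (cutM (T m).k E)) x :=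
        funext (cut_mul_P D.S (T m) (T m).hk)
      rw [h1, (T m).IX_mul_P hwH (D.S.isClosedForm_bk (T m).hk).smooth
        (INT.SmoothFn.continuous (sm_cutU (T m).hk D.S.hE))]
      show ∫ z in e.target, cutU ((m : ℝ) + 1) E (e.symm z) *
        trH H (addH η (cutM ((m : ℝ) + 1) E) e) z = _
      rw [setIntegral_eq_of_subset_of_forall_sdiff_eq_zero e.open_target.measurableSet hKe
        fun z hz => by rw [hzero _ z hz.2, mul_zero]]
      refine setIntegral_congr_fun hKc.measurableSet fun z hz => ?_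
      by_cases h : cutU ((m : ℝ) + 1) E (e.symm z) = 0
      · rw [h, zero_mul, zero_mul]
      · have hk : (0 : ℝ) < (m : ℝ) + 1 := by positivity
        have h2 := hess_cutM_eq (η := η) hk D.S.hE (e := e) (x := e.symm z)
          ⟨he, e.map_target (hKe hz)⟩ h
        rw [e.right_inv (hKe hz)] at h2
        rw [trH, trH, ← h2]
        rfl
    have l2 : ∫ z, trH H (bet η E e) z = ∫ z in Ks, trH H (bet η E e) z :=
      (setIntegral_eq_integral_of_forall_compl_eq_zero fun z hz => hzero _ z hz).symm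
    have hcont : ContinuousOn (trH H (bet η E e)) Ks := by
      intro z hz
      have hAt : At e (e.symm z) := ⟨he, e.map_target (hKe hz)⟩
      have h1 : ∀ i j, ContDiffAt ℝ ∞ (fun z => bet η E e z i j) z := by
        intro i j
        have := contDiffAt_bet D.S hAt (hKE z hz) i j
        rwa [e.right_inv (hKe hz)] at this
      exact (contDiffAt_trH (fun i j => (hHs i j).contDiffAt) h1).continuousAt.continuousWithinAt
    have hcut : ∀ m : ℕ, ContinuousOn (fun z => cutU ((m : ℝ) + 1) E (e.symm z)) Ks := fun m =>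
      (INT.SmoothFn.continuous (sm_cutU (by positivity) D.S.hE)).comp_continuousOn
        (e.continuousOn_symm.mono hKe)
    have l3 : Tendsto (fun m : ℕ => ∫ z in Ks, cutU ((m : ℝ) + 1) E (e.symm z) *
        trH H (bet η E e) z) atTop (𝓝 (∫ z in Ks, trH H (bet η E e) z)) := by
      refine tendsto_integral_of_dominated_convergence (fun z => ‖trH H (bet η E e) z‖)
        (fun m => ((hcut m).mul hcont).aestronglyMeasurable hKc.measurableSet)
        (hcont.integrableOn_compact hKc).norm ?_ ?_
      · intro m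
        refine Eventually.of_forall fun z => ?_
        rw [norm_mul]
        refine mul_le_of_le_one_left (norm_nonneg _) ?_
        rw [Real.norm_eq_abs, abs_of_nonneg (cutU_nonneg _ _)]
        exact cutU_le_one (by positivity) (D.S.E1 _)
      · filter_upwards [ae_restrict_mem hKc.measurableSet] with z hz
        have := (tendsto_cutU (hKE z hz)).mul_const (trH H (bet η E e) z)
        rwa [one_mul] at this
    rw [l2]
    have hle : ∫ z in Ks, trH H (bet η E e) z ≤
        K * ((∫ z, trH H (Θ e) z) + (∫ z, V (e.symm z) * DH H z)) := by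
      refine le_of_tendsto' l3 fun m => ?_
      rw [← l1 m, ← r1 m, ← r2 m]
      exact hmain (T m)
    rw [inv_mul_le_iff₀ hK]
    exact hle

end Vale.Agent.P299.H167
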