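import Vale.Agent.P299.H167.Mass

/-!
# Tests: compactly supported functions and positive matrix functions in a chart
-/

set_option autoImplicit false
set_option linter.unusedSectionVars false

open scoped Manifold ContDiff ComplexOrder Matrix Topology
open Matrix MeasureTheory Set Filter

noncomputable section

namespace Vale.Agent.P299.H167

open Vale.Agent.P272.K Vale.Agent.P272.K.AMP
open INT (IsDensity intX IsClosedForm)

variable {n : ℕ} {X : Type*} [TopologicalSpace X] [ChartedSpace (Cm n) X]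
  {w b c : Chart n X → Cm n → Matrix (Fin n) (Fin n) ℂ} {e : Chart n X} {φ ψ : Cm n → ℝ}
  {K : Set (Cm n)}

open Classical in
/-- the function on `X` such that `tp w e φ * det w = φ` in the chart `e`, zero off `e.source` -/
def tp (w : Chart n X → Cm n → Matrix (Fin n) (Fin n) ℂ) (e : Chart n X) (φ : Cm n → ℝ)
    (x : X) : ℝ :=
  if x ∈ e.source then φ (e x) / (w e (e x)).det.re else 0

lemma tp_of_mem {x : X} (hx : x ∈ e.source) : tp w e φ x = φ (e x) / (w e (e x)).det.re :=
  if_pos hx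

lemma tp_of_notMem {x : X} (hx : x ∉ e.source) : tp w e φ x = 0 := if_neg hx

lemma tp_add (x : X) : tp w e (fun z => φ z + ψ z) x = tp w e φ x + tp w e ψ x := by
  unfold tp
  split_ifs
  · rw [add_div]
  · rw [add_zero]

lemma tp_const_mul (r : ℝ) (x : X) : tp w e (fun z => r * φ z) x = r * tp w e φ x := by
  unfold tp
  split_ifs
  · rw [mul_div_assoc]
  · rw [mul_zero]

variable [IsManifold 𝓘(ℂ, Cm n) ω X] [T2Space X]

/-- `tp w e φ` vanishes off the compact set `e.symm '' K` -/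
lemma tp_eq_zero (h0 : ∀ z ∈ e.target, z ∉ K → φ z = 0) {x : X}
    (hx : x ∉ e.symm '' K) : tp w e φ x = 0 := by
  by_cases h : x ∈ e.source
  · rw [tp_of_mem h, h0 (e x) (e.map_source h) fun hK => hx ⟨e x, hK, e.left_inv h⟩, zero_div]
  · exact tp_of_notMem h

lemma isCompact_symm_image (hK : IsCompact K) (hKe : K ⊆ e.target) : IsCompact (e.symm '' K) :=
  hK.image_of_continuousOn (e.continuousOn_symm.mono hKe)

lemma symm_image_subset (hKe : K ⊆ e.target) : e.symm '' K ⊆ e.source := by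
  rintro _ ⟨z, hz, rfl⟩; exact e.map_target (hKe hz)

theorem sm_tp (hw : IsHermitian w) (he : e ∈ atlas (Cm n) X)
    (hφ : ∀ z ∈ e.target, ContDiffAt ℝ ∞ φ z) (hK : IsCompact K) (hKe : K ⊆ e.target)
    (h0 : ∀ z ∈ e.target, z ∉ K → φ z = 0) : SmoothFn (n := n) (tp w e φ) := by
  intro e' x hx
  by_cases h : x ∈ e.source
  · have hxe : At e x := ⟨he, h⟩
    have hF : ContDiffAt ℝ ∞ (fun z => φ z / (w e z).det.re) (e x) := by
      refine (hφ _ hxe.mem_target).div ?_ (INT.posDef_det_re (hw.posDef e x hxe)).1.ne'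
      exact Complex.reCLM.contDiff.contDiffAt.comp (e x)
        (contDiffAt_det fun i j => hw.smooth e x hxe i j)
    have hτ : ContDiffAt ℝ ∞ (fun z => e (e'.symm z)) (e' x) :=
      ((INT.transition_contDiffAt hx hxe).restrict_scalars ℝ).of_le (by exact le_top)
    have hF' : ContDiffAt ℝ ∞ (fun z => φ z / (w e z).det.re) (e (e'.symm (e' x))) := by
      rw [hx.left_inv]; exact hF
    refine (hF'.comp (e' x) hτ).congr_of_eventuallyEq ?_
    filter_upwards [hx.nhds_at hxe] with z hz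
    exact tp_of_mem hz.2.2.2
  · have hKX : IsClosed (e.symm '' K) := (isCompact_symm_image hK hKe).isClosed
    have hxK : x ∉ e.symm '' K := fun hxK => h (symm_image_subset hKe hxK)
    have h1 : ∀ᶠ z in 𝓝 (e' x), e'.symm z ∈ (e.symm '' K)ᶜ := by
      apply (e'.continuousAt_symm hx.mem_target).eventually_mem
      rw [hx.left_inv]
      exact hKX.isOpen_compl.mem_nhds hxK
    refine (contDiffAt_const (c := (0 : ℝ))).congr_of_eventuallyEq ?_
    filter_upwards [h1] with z hz
    exact tp_eq_zero h0 hz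

variable [CompactSpace X]

theorem cont_tp (hw : IsHermitian w) (he : e ∈ atlas (Cm n) X)
    (hφ : ∀ z ∈ e.target, ContDiffAt ℝ ∞ φ z) (hK : IsCompact K) (hKe : K ⊆ e.target)
    (h0 : ∀ z ∈ e.target, z ∉ K → φ z = 0) : Continuous (tp w e φ) :=
  INT.SmoothFn.continuous (sm_tp hw he hφ hK hKe h0)

/-- `∫_X h tp(φ) dv_w = ∫ h φ` -/
theorem IX_mul_tp (hw : IsHermitian w) (he : e ∈ atlas (Cm n) X)
    (hφ : ∀ z ∈ e.target, ContDiffAt ℝ ∞ φ z) (hK : IsCompact K) (hKe : K ⊆ e.target)
    (h0 : ∀ z ∈ e.target, z ∉ K → φ z = 0) {h : X → ℝ} (hh : Continuous h) :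
    IX w (fun x => h x * tp w e φ x) = ∫ z in e.target, h (e.symm z) * φ z := by
  have hc : Continuous (fun x => h x * tp w e φ x) := hh.mul (cont_tp hw he hφ hK hKe h0)
  unfold IX
  rw [INT.intX_of_support (isDensity_IX hw hc) he (isCompact_symm_image hK hKe).isClosed
    (symm_image_subset hKe) (fun e' x hx hxK => by
      show (h (e'.symm (e' x)) * tp w e φ (e'.symm (e' x))) * _ = 0
      rw [hx.left_inv, tp_eq_zero h0 hxK, mul_zero, zero_mul])]
  refine setIntegral_congr_fun e.open_target.measurableSet fun z hz => ?_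
  have hs := e.map_target hz
  have hd : (w e z).det.re ≠ 0 := by
    have := (INT.posDef_det_re (hw.posDef e (e.symm z) ⟨he, hs⟩)).1
    rw [e.right_inv hz] at this
    exact this.ne'
  show h (e.symm z) * tp w e φ (e.symm z) * (w e z).det.re = _
  rw [tp_of_mem hs, e.right_inv hz]
  field_simp

/-- a test: a chart, a smooth positive semidefinite matrix function with compact support in the
chart, and a cutoff parameter -/
structure Tst (n : ℕ) (X : Type*) [TopologicalSpace X] [ChartedSpace (Cm n) X] where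
  e : Chart n X
  he : e ∈ atlas (Cm n) X
  H : Cm n → Matrix (Fin n) (Fin n) ℂ
  smooth : ∀ i j, ContDiff ℝ ∞ fun z => H z i j
  psd : ∀ z, (H z).PosSemidef
  K : Set (Cm n)
  isCompact : IsCompact K
  subset : K ⊆ e.target
  zero : ∀ z, z ∉ K → H z = 0
  k : ℝ
  hk : 0 < k

/-- `tr (H b)` in the chart of the test -/
def trH (H : Cm n → Matrix (Fin n) (Fin n) ℂ) (b : Cm n → Matrix (Fin n) (Fin n) ℂ) (z : Cm n) :
    ℝ := (H z * b z).trace.re

lemma contDiffAt_trH {H B : Cm n → Matrix (Fin n) (Fin n) ℂ} {z : Cm n}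
    (h1 : ∀ i j, ContDiffAt ℝ ∞ (fun z => H z i j) z)
    (h2 : ∀ i j, ContDiffAt ℝ ∞ (fun z => B z i j) z) : ContDiffAt ℝ ∞ (trH H B) z := by
  have h3 : ContDiffAt ℝ ∞ (fun y => (H y * B y).trace) z := by
    simp only [Matrix.trace, Matrix.diag_apply, Matrix.mul_apply]
    exact ContDiffAt.sum fun i _ => ContDiffAt.sum fun j _ => (h1 i j).mul (h2 j i)
  exact (Complex.reCLM.contDiff.contDiffAt).comp z h3

namespace Tst

variable (T : Tst n X)

/-- the function `tr (H b) / det w` on `X` -/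
def P (w b : Chart n X → Cm n → Matrix (Fin n) (Fin n) ℂ) (x : X) : ℝ :=
  tp w T.e (trH T.H (b T.e)) x

lemma trH_zero (z : Cm n) (hz : z ∉ T.K) (B : Cm n → Matrix (Fin n) (Fin n) ℂ) :
    trH T.H B z = 0 := by simp [trH, T.zero z hz]

lemma smooth_target (hs : ∀ e x, At e x → ∀ i j, ContDiffAt ℝ ∞ (fun y => b e y i j) (e x)) :
    ∀ z ∈ T.e.target, ContDiffAt ℝ ∞ (trH T.H (b T.e)) z := by
  intro z hz
  refine contDiffAt_trH (fun i j => (T.smooth i j).contDiffAt) fun i j => ?_
  have := hs T.e (T.e.symm z) ⟨T.he, T.e.map_target hz⟩ i j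
  rwa [T.e.right_inv hz] at this

theorem sm_P (hw : IsHermitian w)
    (hs : ∀ e x, At e x → ∀ i j, ContDiffAt ℝ ∞ (fun y => b e y i j) (e x)) :
    SmoothFn (n := n) (T.P w b) :=
  sm_tp hw T.he (T.smooth_target hs) T.isCompact T.subset fun z _ hz => T.trH_zero z hz _

theorem IX_mul_P (hw : IsHermitian w)
    (hs : ∀ e x, At e x → ∀ i j, ContDiffAt ℝ ∞ (fun y => b e y i j) (e x)) {h : X → ℝ}
    (hh : Continuous h) :
    IX w (fun x => h x * T.P w b x) = ∫ z in T.e.target, h (T.e.symm z) * trH T.H (b T.e) z :=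
  IX_mul_tp hw T.he (T.smooth_target hs) T.isCompact T.subset (fun z _ hz => T.trH_zero z hz _) hh

theorem P_add (x : X) : T.P w (fun e z => b e z + c e z) x = T.P w b x + T.P w c x := by
  unfold P
  rw [← tp_add]
  congr 1
  funext z
  rw [trH, Matrix.mul_add, Matrix.trace_add, Complex.add_re]
  rfl

theorem P_smul (r : ℝ) (x : X) : T.P w (fun e z => (r : ℂ) • b e z) x = r * T.P w b x := by
  unfold P
  rw [← tp_const_mul]
  congr 1
  funext z
  rw [trH, Matrix.mul_smul, Matrix.trace_smul, smul_eq_mul, Complex.re_ofReal_mul]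
  rfl

omit [T2Space X] [CompactSpace X] [IsManifold 𝓘(ℂ, Cm n) ω X] in
theorem P_congr {x : X} (h : At T.e x → b T.e (T.e x) = c T.e (T.e x)) :
    T.P w b x = T.P w c x := by
  unfold P
  by_cases hx : x ∈ T.e.source
  · rw [tp_of_mem hx, tp_of_mem hx, trH, trH, h ⟨T.he, hx⟩]
  · rw [tp_of_notMem hx, tp_of_notMem hx]

theorem P_nonneg (hw : IsHermitian w) {x : X} (h : At T.e x → (b T.e (T.e x)).PosSemidef) :
    0 ≤ T.P w b x := by
  unfold P
  by_cases hx : x ∈ T.e.source
  · rw [tp_of_mem hx]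
    refine div_nonneg ?_ (INT.posDef_det_re (hw.posDef _ x ⟨T.he, hx⟩)).1.le
    exact (Complex.le_def.1 (C2.trace_mul_nonneg (T.psd _) (h ⟨T.he, hx⟩))).1
  · rw [tp_of_notMem hx]

/-- `P(b) ≤ P(a) tr_a b` -/
theorem P_le_mul (hw : IsHermitian w) {a : Chart n X → Cm n → Matrix (Fin n) (Fin n) ℂ}
    (ha : IsHermitian a) (hbf : IsForm b) {x : X} (hb : At T.e x → (b T.e (T.e x)).PosSemidef) :
    T.P w b x ≤ T.P w a x * trX a b x := by
  unfold P
  by_cases hx : x ∈ T.e.source
  · have hAt : At T.e x := ⟨T.he, hx⟩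
    rw [tp_of_mem hx, tp_of_mem hx, trX_eq ha hbf hAt, div_mul_eq_mul_div]
    refine div_le_div_of_nonneg_right ?_ (INT.posDef_det_re (hw.posDef _ x hAt)).1.le
    exact trace_mul_le (T.psd _) (ha.posDef _ x hAt) (hb hAt)
  · rw [tp_of_notMem hx, tp_of_notMem hx, zero_mul]

end Tst

end Vale.Agent.P299.H167
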