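import Vale.Agent.P299.H167.Out
import Vale.Agent.P299.H216.BrgH
import Vale.Agent.P299.H738.Prod

/-!
# The weight of the duality theorem as an `XWeight`
-/

open scoped Manifold ContDiff ComplexOrder Topology
open Matrix Set Filter MeasureTheory
open Vale.Agent.P272.K Vale.Agent.P272.K.AMP Vale.Agent.P299.D Vale.Agent.P299.H908

set_option linter.all false

noncomputable section

namespace Vale.Agent.P299.H167

open Vale.Agent.P299.H216 (XWeight)

/-- the output of the duality theorem as an `XWeight` -/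
theorem Data.xweight {n : ℕ} {X : Type} [TopologicalSpace X] [T2Space X] [CompactSpace X]
    [PreconnectedSpace X] [Nonempty X] [ChartedSpace (Cm n) X] [IsManifold 𝓘(ℂ, Cm n) ω X]
    {w Θ η : Chart n X → Cm n → Matrix (Fin n) (Fin n) ℂ} {E : X → ℝ} {C Λ : ℝ} {ν : ℕ}
    (D : Data w Θ η E C Λ ν) :
    ∃ ε : ℝ, 0 < ε ∧ ∃ d : ℝ, 0 < d ∧ ∃ V : X → ℝ, (∀ x, V x ≤ 0) ∧
      XWeight Θ (bet η E) {x | 0 < E x} V ε d := by
  obtain ⟨ε, hε, d, hd, V, -, h1, h2, h3, h4, h5⟩ := D.psef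
  exact ⟨ε, hε, d, hd, V, h2,
    { meas := h1
      neg := fun e he => Eventually.of_forall fun z => h2 _
      int := fun x => ⟨chartAt (Cm n) x, at_chartAt x, h3 _ x (at_chartAt x)⟩
      exp := fun x => ⟨chartAt (Cm n) x, at_chartAt x, h4 _ x (at_chartAt x)⟩
      test := h5 }⟩

/-- change of the forms, of the open set and of the exponent in an `XWeight` -/
theorem xweight_congr {n : ℕ} {X : Type} [TopologicalSpace X] [ChartedSpace (Cm n) X]
    {Θ Θ' β β' : Chart n X → Cm n → Matrix (Fin n) (Fin n) ℂ} {Om Om' : Set X} {V : X → ℝ}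
    {ε d d' : ℝ} (h : XWeight Θ β Om V ε d) (hV : ∀ x, V x ≤ 0)
    (hΘ : ∀ e x, At e x → x ∈ Om' → Θ e (e x) = Θ' e (e x))
    (hβ : ∀ e x, At e x → x ∈ Om' → β e (e x) = β' e (e x)) (hOm : Om' ⊆ Om)
    (hd : d' ≤ d) : XWeight Θ' β' Om' V ε d' where
  meas := h.meas
  neg := h.neg
  int := h.int
  exp := fun x => by
    obtain ⟨e, he, O, hO, hI⟩ := h.exp x
    refine ⟨e, he, O, hO, lt_of_le_of_lt (lintegral_mono fun z => ?_) hI⟩
    refine ENNReal.ofReal_le_ofReal (Real.exp_le_exp.2 ?_)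
    have := hV (e.symm z)
    nlinarith
  test := fun e he H hs hc ht hp => by
    have h1 := h.test e he H hs hc (fun l k => (ht l k).trans
      (inter_subset_inter_right _ (preimage_mono hOm))) hp
    have key : ∀ {A A' : Chart n X → Cm n → Matrix (Fin n) (Fin n) ℂ},
        (∀ e x, At e x → x ∈ Om' → A e (e x) = A' e (e x)) →
        (fun z => (∑ l, ∑ k, H z l k * A e z k l).re) =
          fun z => (∑ l, ∑ k, H z l k * A' e z k l).re := by
      intro A A' hA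
      funext z
      by_cases hz : ∀ l k, H z l k = 0
      · simp [hz]
      · push Not at hz
        obtain ⟨l, k, hlk⟩ := hz
        have h2 := ht l k (subset_tsupport _ hlk)
        have h3 := hA e (e.symm z) ⟨he, e.map_target h2.1⟩ h2.2
        rw [e.right_inv h2.1] at h3
        rw [h3]
    rw [key hΘ, key hβ] at h1
    exact h1

/-- **`G-PSEF`**: for homogeneous polynomials `P` on the projective manifold `X`, and `w` a Kähler
metric with `Ric w ≥ 0`, there is an `XWeight` for `Ric(w)` and `β_P` on `Ω_P`, with every small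
exponent `d` -/
theorem exists_xweight {n : ℕ} {X : Type} [TopologicalSpace X] [ChartedSpace (Cm n) X]
    (D : ProjData n X) [IsManifold 𝓘(ℂ, Cm n) ω X] [T2Space X] [CompactSpace X]
    [PreconnectedSpace X] [Nonempty X] {r d : ℕ}
    (P : Fin r → MvPolynomial (Fin (D.N + 1)) ℂ)
    {w : Chart n X → Cm n → Matrix (Fin n) (Fin n) ℂ} (hw : IsKahler w) (hric : RicNonneg w)
    (hP : ∀ i, (P i).IsHomogeneous d)
    (hker : ∃ U : Set X, Dense U ∧ ∀ e x, At e x → x ∈ U → x ∈ H223.OmP D P →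
      (∀ e' y, At e' y → (ric w e' (e' y)).rank ≤ (ric w e (e x)).rank) →
      ∀ v, ric w e (e x) *ᵥ v = 0 → star v ⬝ᵥ (H223.beP D P e (e x) *ᵥ v) = 0) :
    ∃ ε : ℝ, 0 < ε ∧ ∃ δ : ℝ, 0 < δ ∧ ∃ V : X → ℝ, (∀ x, V x ≤ 0) ∧
      ∀ δ' ≤ δ, XWeight (ric w) (H223.beP D P) (H223.OmP D P) V ε δ' := by
  obtain ⟨c, C, Λ, ν, hc, hD⟩ := H738.exists_data_dense D P hw hric hP hker
  obtain ⟨ε, hε, δ, hδ, V, hV, h⟩ := hD.xweight
  refine ⟨ε, hε, δ, hδ, V, hV, fun δ' hδ' => xweight_congr h hV (fun _ _ _ _ => rfl)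
    (fun e x hx hxO => H738.bet_EP D P hP hc hx hxO)
    (fun x hx => (H738.EP_pos_iff D P hc x).2 hx) hδ'⟩

/-- the same with `Ric(w) = -i∂∂̄ φ`, `φ` the logarithm of the determinant -/
theorem exists_xweight_canonical {n : ℕ} {X : Type} [TopologicalSpace X] [ChartedSpace (Cm n) X]
    (D : ProjData n X) [IsManifold 𝓘(ℂ, Cm n) ω X] [T2Space X] [CompactSpace X]
    [PreconnectedSpace X] [Nonempty X] {r d : ℕ}
    (P : Fin r → MvPolynomial (Fin (D.N + 1)) ℂ)
    {w : Chart n X → Cm n → Matrix (Fin n) (Fin n) ℂ} (hw : IsKahler w) (hric : RicNonneg w)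
    (hP : ∀ i, (P i).IsHomogeneous d)
    (hker : ∃ U : Set X, Dense U ∧ ∀ e x, At e x → x ∈ U → x ∈ H223.OmP D P →
      (∀ e' y, At e' y → (ric w e' (e' y)).rank ≤ (ric w e (e x)).rank) →
      ∀ v, ric w e (e x) *ᵥ v = 0 → star v ⬝ᵥ (H223.beP D P e (e x) *ᵥ v) = 0)
    (φ : Chart n X → Cm n → ℝ)
    (hφ : ∀ e x, At e x → -cHess (φ e) (e x) = ric w e (e x)) :
    ∃ ε : ℝ, 0 < ε ∧ ∃ δ : ℝ, 0 < δ ∧ ∃ V : X → ℝ, (∀ x, V x ≤ 0) ∧
      ∀ δ' ≤ δ, XWeight (fun e z => -cHess (φ e) z) (H223.beP D P) (H223.OmP D P) V ε δ' := by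
  obtain ⟨ε, hε, δ, hδ, V, hV, h⟩ := exists_xweight D P hw hric hP hker
  exact ⟨ε, hε, δ, hδ, V, hV, fun δ' hδ' => xweight_congr (h δ' hδ') hV
    (fun e x hx _ => (hφ e x hx).symm) (fun _ _ _ _ => rfl) Subset.rfl le_rfl⟩

end Vale.Agent.P299.H167
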