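import Vale.Agent.P299.H167.Tp
import Vale.Agent.P299.H835.Yau

/-!
# The Calabi-Yau step
-/

set_option autoImplicit false
set_option linter.unusedSectionVars false

open scoped Manifold ContDiff ComplexOrder Matrix Topology
open Matrix MeasureTheory Set Filter

noncomputable section

namespace Vale.Agent.P299.H167

open Vale.Agent.P272.K Vale.Agent.P272.K.AMP
open INT (IsDensity intX IsClosedForm)

theorem amgm {x y z K : ℝ} (hy : 0 ≤ y) (hz : 0 ≤ z) (hK : 0 < K)
    (h : x ^ 2 ≤ y * z) : x ≤ K / 2 * y + (2 * K)⁻¹ * z := by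
  have h1 : x ^ 2 ≤ (K / 2 * y + (2 * K)⁻¹ * z) ^ 2 := by
    have e1 : (K / 2 * y + (2 * K)⁻¹ * z) ^ 2 = (K / 2 * y - (2 * K)⁻¹ * z) ^ 2 + y * z := by
      field_simp
      ring
    rw [e1]
    nlinarith [sq_nonneg (K / 2 * y - (2 * K)⁻¹ * z)]
  exact (le_abs_self x).trans (abs_le_of_sq_le_sq h1 (by positivity))

variable {n : ℕ} {X : Type} [TopologicalSpace X] [ChartedSpace (Cm n) X]
  {w η A g : Chart n X → Cm n → Matrix (Fin n) (Fin n) ℂ} {E u : X → ℝ} {C k : ℝ}
  [IsManifold 𝓘(ℂ, Cm n) ω X] [T2Space X] [CompactSpace X]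

theorem IX_sum (hw : IsHermitian w) {ι : Type*} (s : Finset ι) {f : ι → X → ℝ}
    (hf : ∀ i ∈ s, Continuous (f i)) : IX w (fun x => ∑ i ∈ s, f i x) = ∑ i ∈ s, IX w (f i) := by
  classical
  induction s using Finset.induction_on with
  | empty =>
    simp only [Finset.sum_empty]
    unfold IX
    simp [INT.intX_zero]
  | insert i s hi ih =>
    have h1 : (fun x => ∑ j ∈ insert i s, f j x) = fun x => f i x + ∑ j ∈ s, f j x := by
      funext x; rw [Finset.sum_insert hi]
    have h2 : Continuous (fun x => ∑ j ∈ s, f j x) :=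
      continuous_finsetSum _ fun j hj => hf j (Finset.mem_insert_of_mem hj)
    rw [h1, IX_add hw (hf i (Finset.mem_insert_self _ _)) h2, Finset.sum_insert hi,
      ih fun j hj => hf j (Finset.mem_insert_of_mem hj)]

/-- `log (det A / det w)` as a function on `X` -/
def lq (A w : Chart n X → Cm n → Matrix (Fin n) (Fin n) ℂ) (x : X) : ℝ :=
  atX (fun e z => Real.log (A e z).det.re - Real.log (w e z).det.re) x

theorem lq_chart (hA : IsHermitian A) (hw : IsHermitian w) {e e' : Chart n X} {x : X}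
    (h : At e x) (h' : At e' x) :
    Real.log (A e (e x)).det.re - Real.log (w e (e x)).det.re =
      Real.log (A e' (e' x)).det.re - Real.log (w e' (e' x)).det.re := by
  have a1 := (INT.posDef_det_re (hA.posDef e x h)).1
  have a2 := (INT.posDef_det_re (hA.posDef e' x h')).1
  have w2 := (INT.posDef_det_re (hw.posDef e' x h')).1
  have hJ : 0 < ‖(jacM e e' x).det‖ ^ 2 := by
    rw [det_form_re hA.isForm h h'] at a1
    exact pos_of_mul_pos_left a1 a2.le
  rw [det_form_re hA.isForm h h', det_form_re hw.isForm h h', Real.log_mul hJ.ne' a2.ne',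
    Real.log_mul hJ.ne' w2.ne']
  ring

theorem lq_eq (hA : IsHermitian A) (hw : IsHermitian w) {e : Chart n X} {x : X} (h : At e x) :
    lq A w x = Real.log (A e (e x)).det.re - Real.log (w e (e x)).det.re :=
  lq_chart hA hw (at_chartAt x) h

theorem contDiffAt_logdet (hA : IsHermitian A) {e : Chart n X} {x : X} (h : At e x) :
    ContDiffAt ℝ ∞ (fun z => Real.log (A e z).det.re) (e x) := by
  refine ContDiffAt.log ?_ (INT.posDef_det_re (hA.posDef e x h)).1.ne'
  exact Complex.reCLM.contDiff.contDiffAt.comp (e x)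
    (contDiffAt_det fun i j => hA.smooth e x h i j)

theorem sm_lq (hA : IsHermitian A) (hw : IsHermitian w) : SmoothFn (n := n) (lq A w) :=
  smoothFn_atX (fun _ _ h => (contDiffAt_logdet hA h).sub (contDiffAt_logdet hw h))
    fun _ _ _ h h' => lq_chart hA hw h h'

section

variable (S : Setup w η E C)
include S

theorem cut_mul_P (T : Tst n X) (hk : 0 < k) (x : X) :
    cutU k E x * T.P w (bet η E) x = cutU k E x * T.P w (addH η (cutM k E)) x := by
  by_cases h : cutU k E x = 0
  · rw [h, zero_mul, zero_mul]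
  · congr 1
    exact T.P_congr fun hx => (hess_cutM_eq (η := η) hk S.hE hx h).symm

theorem sm_cut_mul_P (T : Tst n X) (hk : 0 < k) :
    SmoothFn (n := n) (fun x => cutU k E x * T.P w (bet η E) x) := by
  have h : (fun x => cutU k E x * T.P w (bet η E) x) =
      fun x => cutU k E x * T.P w (addH η (cutM k E)) x := funext (cut_mul_P S T hk)
  rw [h]
  exact sm_mul (sm_cutU hk S.hE) (T.sm_P S.hw.toIsHermitian (S.isClosedForm_bk hk).smooth)

theorem cut_mul_P_nonneg (T : Tst n X) (x : X) : 0 ≤ cutU k E x * T.P w (bet η E) x := by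
  by_cases h : cutU k E x = 0
  · rw [h, zero_mul]
  · exact mul_nonneg (cutU_nonneg k x) (T.P_nonneg S.hw.toIsHermitian fun hx =>
      S.hβ _ x hx (cutU_ne_zero h).1)

theorem IX_cut_mul_P_mono (T : Tst n X) {K : ℝ} (hk : 0 < k) (hK : k ≤ K) :
    IX w (fun x => cutU k E x * T.P w (bet η E) x) ≤
      IX w (fun x => cutU K E x * T.P w (bet η E) x) := by
  refine IX_mono S.hw.toIsHermitian (INT.SmoothFn.continuous (sm_cut_mul_P S T hk))
    (INT.SmoothFn.continuous (sm_cut_mul_P S T (hk.trans_le hK))) fun x => ?_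
  by_cases h : cutU k E x = 0
  · rw [h, zero_mul]; exact cut_mul_P_nonneg S T x
  · exact mul_le_mul_of_nonneg_right (cutU_mono hk hK (S.E1 x))
      (T.P_nonneg S.hw.toIsHermitian fun hx => S.hβ _ x hx (cutU_ne_zero h).1)

/-- pointwise: `u_k P(β) ≤ P(a) (u_k tr_a β)` -/
theorem cut_mul_P_le (T : Tst n X) (hk : 0 < k) {a : Chart n X → Cm n → Matrix (Fin n) (Fin n) ℂ}
    (ha : IsHermitian a) (x : X) :
    cutU k E x * T.P w (bet η E) x ≤ T.P w a x * (cutU k E x * trX a (bet η E) x) := by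
  by_cases h : cutU k E x = 0
  · rw [h, zero_mul, zero_mul, mul_zero]
  · rw [cut_mul_P S T hk, S.mul_trX_eq hk]
    have h1 : ∀ hx : At T.e x, (addH η (cutM k E) T.e (T.e x)).PosSemidef := fun hx => by
      have := hess_cutM_eq (η := η) hk S.hE hx h
      have h2 := S.hβ _ x hx (cutU_ne_zero h).1
      rw [← this] at h2
      exact h2
    have h2 := T.P_le_mul S.hw.toIsHermitian ha (S.isClosedForm_bk hk).form h1
    calc cutU k E x * T.P w (addH η (cutM k E)) x
        ≤ cutU k E x * (T.P w a x * trX a (addH η (cutM k E)) x) :=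
          mul_le_mul_of_nonneg_left h2 (cutU_nonneg k x)
      _ = _ := by ring

variable [PreconnectedSpace X] [Nonempty X]

/-- **the Calabi-Yau step** -/
theorem yau_step (hA : IsKahler A) {R K : ℝ} (hR : ∀ k : ℝ, 0 < k → Ms η E A k ≤ R)
    (hK : 0 < K) (hRK : R ≤ K * intX (fun (e : Chart n X) z => (A e z).det.re))
    {ι : Type*} [Fintype ι] (G : ι → Tst n X) (hk : 0 < k) {ε : ℝ} (hε : 0 < ε) :
    ∃ u : X → ℝ, SmoothFn (n := n) u ∧ (∀ e x, At e x → (addH A u e (e x)).PosDef) ∧
      (∀ x, u x ≤ 0) ∧ (∃ x, u x = 0) ∧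
      IX w (fun x => ∑ i, cutU k E x * (G i).P w (bet η E) x) ≤
        K * IX w (fun x => ∑ i, (G i).P w (addH A u) x) + ε := by
  have hwH := S.hw.toIsHermitian
  have hAH := hA.toIsHermitian
  set m : ℝ := intX (fun (e : Chart n X) z => (A e z).det.re) with hm
  have hm0 : 0 < m := INT.intX_pos (INT.IsKahler.isClosedForm hA).isDensity fun e x hx =>
    (INT.posDef_det_re (hAH.posDef e x hx)).1
  set Vol : ℝ := IX w (fun _ => 1) with hVol
  have hVol0 : 0 ≤ Vol := IX_nonneg hwH fun _ => zero_le_one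
  set κ : ℝ := ε / (Vol + 1) with hκ
  have hκ0 : 0 < κ := by positivity
  have hκV : κ * Vol ≤ ε := by
    rw [hκ, div_mul_eq_mul_div, div_le_iff₀ (by positivity)]
    nlinarith
  set X1 : X → ℝ := fun x => ∑ i, cutU k E x * (G i).P w (bet η E) x with hX1
  have sX1 : SmoothFn (n := n) X1 :=
    INT.SmoothFn.sum _ fun i _ => sm_cut_mul_P S (G i) hk
  have X10 : ∀ x, 0 ≤ X1 x := fun x => Finset.sum_nonneg fun i _ => cut_mul_P_nonneg S (G i) x
  set f : X → ℝ := fun x => X1 x + κ with hf
  have sf : SmoothFn (n := n) f := sm_add sX1 (smoothFn_const κ)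
  have f0 : ∀ x, 0 < f x := fun x => by have := X10 x; positivity
  have cf' : Continuous f := INT.SmoothFn.continuous sf
  have cX1 : Continuous X1 := INT.SmoothFn.continuous sX1
  have hIf : IX w f = IX w X1 + κ * Vol := by
    have h1 := IX_add hwH (f := X1) (f' := fun _ => κ) cX1 continuous_const
    have h2 := IX_const_mul (g := w) (f := fun _ : X => (1 : ℝ)) κ
    simp only [mul_one] at h2
    rw [hf, h1, h2]
  -- the Calabi-Yau theorem
  obtain ⟨u₀, c, hu₀, hp₀, hdet₀⟩ := H835.yau (n := n) (X := X) A hA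
    (fun x => Real.log (f x) - lq A w x) (sm_sub (sm_log sf f0) (sm_lq hAH hwH))
  obtain ⟨x₀, -, hx₀⟩ := isCompact_univ.exists_isMaxOn univ_nonempty
    (INT.SmoothFn.continuous hu₀).continuousOn
  set u : X → ℝ := fun x => u₀ x - u₀ x₀ with hu
  have su : SmoothFn (n := n) u := sm_sub hu₀ (smoothFn_const _)
  have hadd : ∀ e x, At e x → addH A u e (e x) = addH A u₀ e (e x) := by
    intro e x hx
    have h1 : hess u e (e x) = hess u₀ e (e x) := by
      rw [hu, hess_sub' hu₀ (smoothFn_const _) hx, hess_const', sub_zero]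
    show A e (e x) + hess u e (e x) = A e (e x) + hess u₀ e (e x)
    rw [h1]
  have hp : ∀ e x, At e x → (addH A u e (e x)).PosDef := fun e x hx => by
    rw [hadd e x hx]; exact hp₀ e x hx
  have ha : IsKahler (addH A u) :=
    isKahler_of ((INT.IsKahler.isClosedForm hA).add (INT.isClosedForm_cHess su)) hp
  have haH := ha.toIsHermitian
  refine ⟨u, su, hp, fun x => sub_nonpos.2 (hx₀ (mem_univ x)), ⟨x₀, sub_self _⟩, ?_⟩
  -- the determinant
  have hdet : ∀ e x, At e x →
      (addH A u e (e x)).det.re = Real.exp c * (f x * (w e (e x)).det.re) := by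
    intro e x hx
    have h1 := hdet₀ e x hx
    have p1 := (INT.posDef_det_re (hp₀ e x hx)).1
    have p3 := (INT.posDef_det_re (hwH.posDef e x hx)).1
    rw [lq_eq hAH hwH hx] at h1
    rw [hadd e x hx, ← Real.exp_log p1, ← Real.exp_log (f0 x), ← Real.exp_log p3,
      ← Real.exp_add, ← Real.exp_add]
    congr 1
    linarith
  have hmf : m = Real.exp c * IX w f := by
    rw [hm, ← INT.intX_det_add_cHess (INT.IsKahler.isClosedForm hA) su, IX, ← INT.intX_const_mul]
    refine INT.intX_congr fun e x hx => ?_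
    have := hdet e x hx
    rw [e.left_inv hx.2]
    exact this
  have hfI : 0 < IX w f := by
    have := Real.exp_pos c
    rw [hmf] at hm0
    exact pos_of_mul_pos_right hm0 this.le
  -- `∫ u_k tr_a β f dv_w`
  have hMs : ∀ k' : ℝ, 0 < k' → Ms η E (addH A u) k' ≤ R := fun k' hk' =>
    Ms_addH_le S hA su hp hR hk'
  set Z : X → ℝ := fun x => (cutU k E x * trX (addH A u) (bet η E) x) * f x with hZ
  have sZ : SmoothFn (n := n) Z := sm_mul (S.sm_mul_trX hk haH) sf
  have Z0 : ∀ x, 0 ≤ Z x := fun x => mul_nonneg (S.mul_trX_nonneg haH x) (f0 x).le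
  have hZI : Real.exp c * IX w Z = Ms η E (addH A u) k := by
    rw [Ms, IX, IX, ← INT.intX_const_mul]
    refine INT.intX_congr fun e x hx => ?_
    rw [hZ]
    simp only
    rw [e.left_inv hx.2, hdet e x hx]
    ring
  have hZle : IX w Z ≤ K * IX w f := by
    have h1 : Real.exp c * IX w Z ≤ Real.exp c * (K * IX w f) := by
      rw [hZI]
      refine (hMs k hk).trans (hRK.trans (le_of_eq ?_))
      rw [hmf]; ring
    exact le_of_mul_le_mul_left h1 (Real.exp_pos c)
  set Y : X → ℝ := fun x => ∑ i, (G i).P w (addH A u) x with hY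
  have sY : SmoothFn (n := n) Y := INT.SmoothFn.sum _ fun i _ =>
    (G i).sm_P hwH haH.smooth
  have Y0 : ∀ x, 0 ≤ Y x := fun x => Finset.sum_nonneg fun i _ =>
    (G i).P_nonneg hwH fun hx => (hp _ x hx).posSemidef
  have hpt : ∀ x, X1 x ≤ K / 2 * Y x + (2 * K)⁻¹ * Z x := by
    intro x
    refine amgm (Y0 x) (Z0 x) hK ?_
    have h1 : X1 x ≤ Y x * (cutU k E x * trX (addH A u) (bet η E) x) := by
      rw [hX1, hY]
      simp only
      rw [Finset.sum_mul]
      exact Finset.sum_le_sum fun i _ => cut_mul_P_le S (G i) hk haH x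
    have h2 : X1 x ≤ f x := by rw [hf]; simp only; linarith
    have h3 := X10 x
    have h4 : 0 ≤ Y x * (cutU k E x * trX (addH A u) (bet η E) x) := h3.trans h1
    calc X1 x ^ 2 = X1 x * X1 x := sq _
      _ ≤ (Y x * (cutU k E x * trX (addH A u) (bet η E) x)) * f x :=
          mul_le_mul h1 h2 h3 h4
      _ = Y x * Z x := by rw [hZ]; ring
  have cY : Continuous Y := INT.SmoothFn.continuous sY
  have cZ : Continuous Z := INT.SmoothFn.continuous sZ
  have hint : IX w X1 ≤ K / 2 * IX w Y + (2 * K)⁻¹ * IX w Z := by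
    have h1 := IX_mono hwH (f := X1) (f' := fun x => K / 2 * Y x + (2 * K)⁻¹ * Z x) cX1
      ((continuous_const.mul cY).add (continuous_const.mul cZ)) hpt
    have h2 := IX_add hwH (f := fun x => K / 2 * Y x) (f' := fun x => (2 * K)⁻¹ * Z x)
      (continuous_const.mul cY) (continuous_const.mul cZ)
    have h3 := IX_const_mul (g := w) (f := Y) (K / 2)
    have h4 := IX_const_mul (g := w) (f := Z) (2 * K)⁻¹
    rw [h2, h3, h4] at h1
    exact h1
  have h5 : (2 * K)⁻¹ * IX w Z ≤ 1 / 2 * IX w f := by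
    calc (2 * K)⁻¹ * IX w Z ≤ (2 * K)⁻¹ * (K * IX w f) :=
          mul_le_mul_of_nonneg_left hZle (by positivity)
      _ = 1 / 2 * IX w f := by field_simp
  linarith

end

end Vale.Agent.P299.H167
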